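import Mathlib

/-!
# Row 111: bounded measurable fields of operators acting on `L²(Y; H)`.
-/

set_option autoImplicit false

namespace Crest.Agent.N111

open MeasureTheory Topology Filter
open scoped ENNReal NNReal InnerProductSpace

variable {Y : Type*} [MeasurableSpace Y] {ν : Measure Y}
variable {H H' H'' : Type*} [NormedAddCommGroup H] [InnerProductSpace ℂ H]
  [NormedAddCommGroup H'] [InnerProductSpace ℂ H'] [NormedAddCommGroup H''] [InnerProductSpace ℂ H'']

/-- a strongly measurable, essentially bounded field of operators -/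
structure IsFld (ν : Measure Y) (T : Y → H →L[ℂ] H') : Prop where
  meas : ∀ v, AEStronglyMeasurable (fun y => T y v) ν
  bdd : ∃ C : ℝ, ∀ᵐ y ∂ν, ‖T y‖ ≤ C

lemma aesm_apply {T : Y → H →L[ℂ] H'} (hT : ∀ v, AEStronglyMeasurable (fun y => T y v) ν)
    {ξ : Y → H} (hξ : AEStronglyMeasurable ξ ν) : AEStronglyMeasurable (fun y => T y (ξ y)) ν := by
  have hs : ∀ s : SimpleFunc Y H, AEStronglyMeasurable (fun y => T y (s y)) ν := fun s => by
    induction s using SimpleFunc.induction with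
    | @const c A hA =>
      refine ((hT c).indicator hA).congr (Eventually.of_forall fun y => ?_)
      by_cases hy : y ∈ A <;> simp [hy]
    | @add f g _ hf hg =>
      refine (hf.add hg).congr (Eventually.of_forall fun y => ?_)
      simp
  refine aestronglyMeasurable_of_tendsto_ae atTop
    (f := fun n y => T y (hξ.stronglyMeasurable_mk.approx n y)) (fun n => hs _) ?_
  filter_upwards [hξ.ae_eq_mk] with y hy
  rw [hy]
  exact ((T y).continuous.tendsto _).comp (hξ.stronglyMeasurable_mk.tendsto_approx y)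

namespace IsFld

variable {T S : Y → H →L[ℂ] H'}

lemma memLp (hT : IsFld ν T) (ξ : Lp H 2 ν) : MemLp (fun y => T y (ξ y)) 2 ν := by
  obtain ⟨C, hC⟩ := hT.bdd
  refine MemLp.of_le_mul (c := C) (Lp.memLp ξ) (aesm_apply hT.meas (Lp.aestronglyMeasurable ξ)) ?_
  filter_upwards [hC] with y hy
  exact (T y).le_of_opNorm_le hy _

lemma congr (hT : IsFld ν T) (h : T =ᵐ[ν] S) : IsFld ν S :=
  ⟨fun v => (hT.meas v).congr (h.mono fun y hy => by simp only [hy]),
    hT.bdd.imp fun C hC => by filter_upwards [hC, h] with y h1 h2 using h2 ▸ h1⟩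

lemma const (A : H →L[ℂ] H') : IsFld ν (fun _ => A) :=
  ⟨fun _ => aestronglyMeasurable_const, ‖A‖, Eventually.of_forall fun _ => le_rfl⟩

lemma add (hT : IsFld ν T) (hS : IsFld ν S) : IsFld ν (fun y => T y + S y) := by
  obtain ⟨C, hC⟩ := hT.bdd
  obtain ⟨D, hD⟩ := hS.bdd
  refine ⟨fun v => (hT.meas v).add (hS.meas v), C + D, ?_⟩
  filter_upwards [hC, hD] with y h1 h2 using (norm_add_le _ _).trans (add_le_add h1 h2)

lemma neg (hT : IsFld ν T) : IsFld ν (fun y => -T y) :=
  ⟨fun v => (hT.meas v).neg, hT.bdd.imp fun C hC => hC.mono fun y hy => by rwa [norm_neg]⟩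

lemma sub (hT : IsFld ν T) (hS : IsFld ν S) : IsFld ν (fun y => T y - S y) := by
  simpa only [sub_eq_add_neg] using hT.add hS.neg

lemma smul (hT : IsFld ν T) {f : Y → ℂ} (hf : AEStronglyMeasurable f ν) {B : ℝ}
    (hB : ∀ᵐ y ∂ν, ‖f y‖ ≤ B) : IsFld ν (fun y => f y • T y) := by
  obtain ⟨C, hC⟩ := hT.bdd
  refine ⟨fun v => hf.smul (hT.meas v), B * C, ?_⟩
  filter_upwards [hC, hB] with y h1 h2
  rw [norm_smul]
  exact mul_le_mul h2 h1 (norm_nonneg _) ((norm_nonneg _).trans h2)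

lemma const_smul (hT : IsFld ν T) (c : ℂ) : IsFld ν (fun y => c • T y) :=
  hT.smul aestronglyMeasurable_const (Eventually.of_forall fun _ => le_rfl)

lemma sum {κ : Type*} (s : Finset κ) {T : κ → Y → H →L[ℂ] H'} (hT : ∀ k ∈ s, IsFld ν (T k)) :
    IsFld ν (fun y => ∑ k ∈ s, T k y) := by
  classical
  induction s using Finset.induction_on with
  | empty => simpa using const 0
  | insert a s ha ih =>
    simp only [Finset.sum_insert ha]
    exact (hT a (by simp)).add (ih fun k hk => hT k (by simp [hk]))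

lemma comp {R : Y → H' →L[ℂ] H''} (hR : IsFld ν R) (hT : IsFld ν T) :
    IsFld ν (fun y => R y ∘L T y) := by
  obtain ⟨C, hC⟩ := hT.bdd
  obtain ⟨D, hD⟩ := hR.bdd
  refine ⟨fun v => aesm_apply hR.meas (hT.meas v), D * C, ?_⟩
  filter_upwards [hC, hD] with y h1 h2
  exact ((R y).opNorm_comp_le _).trans
    (mul_le_mul h2 h1 (norm_nonneg _) ((norm_nonneg _).trans h2))

lemma mul {R T : Y → H →L[ℂ] H} (hR : IsFld ν R) (hT : IsFld ν T) :
    IsFld ν (fun y => R y * T y) := hR.comp hT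

lemma comp_qmp {Z : Type*} [MeasurableSpace Z] {ρ : Measure Z} (hT : IsFld ν T) {φ : Z → Y}
    (hφ : Measure.QuasiMeasurePreserving φ ρ ν) : IsFld ρ (fun z => T (φ z)) :=
  ⟨fun v => (hT.meas v).comp_quasiMeasurePreserving hφ, hT.bdd.imp fun _ hC => hφ.ae hC⟩

/-- a bounded function of a measurable map into a countable set -/
lemma of_countable {K : Type*} [Countable K] [MeasurableSpace K] [DiscreteMeasurableSpace K]
    {c : Y → K} (hc : Measurable c) (Φ : K → H →L[ℂ] H') {C : ℝ} (hΦ : ∀ k, ‖Φ k‖ ≤ C) :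
    IsFld ν (fun y => Φ (c y)) := by
  refine ⟨fun v => ?_, C, Eventually.of_forall fun y => hΦ _⟩
  have : StronglyMeasurable (fun k => Φ k v) := StronglyMeasurable.of_discrete
  exact (this.comp_measurable hc).aestronglyMeasurable

end IsFld

open Classical in
/-- the operator on `L²` defined by a field (zero if the field is not admissible) -/
noncomputable def fld (ν : Measure Y) (T : Y → H →L[ℂ] H') : Lp H 2 ν →L[ℂ] Lp H' 2 ν :=
  if h : IsFld ν T then
    LinearMap.mkContinuousOfExistsBound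
      { toFun := fun ξ => (h.memLp ξ).toLp _
        map_add' := fun ξ η => by
          refine Lp.ext ?_
          filter_upwards [(h.memLp (ξ + η)).coeFn_toLp, (h.memLp ξ).coeFn_toLp,
            (h.memLp η).coeFn_toLp, Lp.coeFn_add ξ η,
            Lp.coeFn_add ((h.memLp ξ).toLp _) ((h.memLp η).toLp _)] with y h1 h2 h3 h4 h5
          rw [h1, h5, h4, Pi.add_apply, Pi.add_apply, h2, h3, map_add]
        map_smul' := fun c ξ => by
          refine Lp.ext ?_
          filter_upwards [(h.memLp (c • ξ)).coeFn_toLp, (h.memLp ξ).coeFn_toLp,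
            Lp.coeFn_smul c ξ, Lp.coeFn_smul c ((h.memLp ξ).toLp _)] with y h1 h2 h3 h4
          rw [RingHom.id_apply, h1, h4, h3, Pi.smul_apply, Pi.smul_apply, h2, map_smul] }
      (by
        obtain ⟨C, hC⟩ := h.bdd
        refine ⟨C, fun ξ => Lp.norm_le_mul_norm_of_ae_le_mul ?_⟩
        filter_upwards [(h.memLp ξ).coeFn_toLp, hC] with y h1 h2
        exact h1 ▸ (T y).le_of_opNorm_le h2 _)
  else 0

variable {T S : Y → H →L[ℂ] H'}

theorem IsFld.coeFn (hT : IsFld ν T) (ξ : Lp H 2 ν) : fld ν T ξ =ᵐ[ν] fun y => T y (ξ y) := by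
  rw [fld, dif_pos hT]
  exact (hT.memLp ξ).coeFn_toLp

theorem norm_fld_le {C : ℝ} (hC0 : 0 ≤ C) (hC : ∀ᵐ y ∂ν, ‖T y‖ ≤ C) : ‖fld ν T‖ ≤ C := by
  by_cases hT : IsFld ν T
  · refine ContinuousLinearMap.opNorm_le_bound _ hC0 fun ξ => Lp.norm_le_mul_norm_of_ae_le_mul ?_
    filter_upwards [hT.coeFn ξ, hC] with y h1 h2
    exact h1 ▸ (T y).le_of_opNorm_le h2 _
  · rw [fld, dif_neg hT]
    exact ContinuousLinearMap.opNorm_le_bound _ hC0 fun ξ => by simp; positivity

theorem fld_congr (h : T =ᵐ[ν] S) : fld ν T = fld ν S := by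
  by_cases hT : IsFld ν T
  · ext1 ξ
    refine Lp.ext ?_
    filter_upwards [hT.coeFn ξ, (hT.congr h).coeFn ξ, h] with y h1 h2 h3
    rw [h1, h2, h3]
  · rw [fld, dif_neg hT, fld, dif_neg fun hS => hT (hS.congr h.symm)]

/-- an operator acting pointwise is the field operator -/
theorem eq_fld (hT : IsFld ν T) {A : Lp H 2 ν →L[ℂ] Lp H' 2 ν}
    (h : ∀ ξ, A ξ =ᵐ[ν] fun y => T y (ξ y)) : A = fld ν T := by
  ext1 ξ
  exact Lp.ext ((h ξ).trans (hT.coeFn ξ).symm)

theorem fld_add (hT : IsFld ν T) (hS : IsFld ν S) :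
    fld ν (fun y => T y + S y) = fld ν T + fld ν S := by
  refine (eq_fld (hT.add hS) fun ξ => ?_).symm
  filter_upwards [Lp.coeFn_add (fld ν T ξ) (fld ν S ξ), hT.coeFn ξ, hS.coeFn ξ] with y h1 h2 h3
  rw [add_apply, h1, Pi.add_apply, h2, h3, add_apply]

theorem fld_sub (hT : IsFld ν T) (hS : IsFld ν S) :
    fld ν (fun y => T y - S y) = fld ν T - fld ν S := by
  refine (eq_fld (hT.sub hS) fun ξ => ?_).symm
  filter_upwards [Lp.coeFn_sub (fld ν T ξ) (fld ν S ξ), hT.coeFn ξ, hS.coeFn ξ] with y h1 h2 h3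
  rw [sub_apply, h1, Pi.sub_apply, h2, h3, sub_apply]

theorem fld_const_smul (hT : IsFld ν T) (c : ℂ) : fld ν (fun y => c • T y) = c • fld ν T := by
  refine (eq_fld (hT.const_smul c) fun ξ => ?_).symm
  filter_upwards [Lp.coeFn_smul c (fld ν T ξ), hT.coeFn ξ] with y h1 h2
  rw [smul_apply, h1, Pi.smul_apply, h2, smul_apply]

@[simp] theorem fld_zero : fld ν (fun _ => (0 : H →L[ℂ] H')) = 0 := by
  refine (eq_fld (IsFld.const _) fun ξ => ?_).symm
  exact Lp.coeFn_zero H' 2 ν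

@[simp] theorem fld_one : fld ν (fun _ => (1 : H →L[ℂ] H)) = 1 :=
  (eq_fld (IsFld.const _) fun _ => Eventually.of_forall fun _ => rfl).symm

theorem fld_sum {κ : Type*} (s : Finset κ) {T : κ → Y → H →L[ℂ] H'}
    (hT : ∀ k ∈ s, IsFld ν (T k)) : fld ν (fun y => ∑ k ∈ s, T k y) = ∑ k ∈ s, fld ν (T k) := by
  classical
  induction s using Finset.induction_on with
  | empty => simp
  | insert a s ha ih =>
    simp only [Finset.sum_insert ha]
    rw [fld_add (hT a (by simp)) (IsFld.sum s fun k hk => hT k (by simp [hk])),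
      ih fun k hk => hT k (by simp [hk])]

theorem fld_comp {R : Y → H' →L[ℂ] H''} (hR : IsFld ν R) (hT : IsFld ν T) :
    fld ν (fun y => R y ∘L T y) = fld ν R ∘L fld ν T := by
  refine (eq_fld (hR.comp hT) fun ξ => ?_).symm
  filter_upwards [hR.coeFn (fld ν T ξ), hT.coeFn ξ] with y h1 h2
  rw [ContinuousLinearMap.comp_apply, h1, h2, ContinuousLinearMap.comp_apply]

theorem fld_mul {R T : Y → H →L[ℂ] H} (hR : IsFld ν R) (hT : IsFld ν T) :
    fld ν (fun y => R y * T y) = fld ν R * fld ν T := fld_comp hR hT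

theorem IsFld.inner_fld (hT : IsFld ν T) (η : Lp H' 2 ν) (ξ : Lp H 2 ν) :
    ⟪η, fld ν T ξ⟫_ℂ = ∫ y, ⟪η y, T y (ξ y)⟫_ℂ ∂ν := by
  rw [L2.inner_def]
  refine integral_congr_ae ?_
  filter_upwards [hT.coeFn ξ] with y hy
  rw [hy]

theorem norm_sq_eq_integral (ξ : Lp H 2 ν) : ‖ξ‖ ^ 2 = ∫ y, ‖ξ y‖ ^ 2 ∂ν := by
  have h := L2.inner_def (𝕜 := ℂ) ξ ξ
  simp only [inner_self_eq_norm_sq_to_K] at h
  have h2 : ∫ y, ((‖ξ y‖ : ℂ)) ^ 2 ∂ν = ((∫ y, ‖ξ y‖ ^ 2 ∂ν : ℝ) : ℂ) := by
    rw [← integral_complex_ofReal]; simp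
  have h3 : ((‖ξ‖ ^ 2 : ℝ) : ℂ) = ((∫ y, ‖ξ y‖ ^ 2 ∂ν : ℝ) : ℂ) := by
    rw [← h2]; simpa using h
  exact_mod_cast h3

omit [InnerProductSpace ℂ H] in
theorem integrable_norm_sq (ξ : Lp H 2 ν) : Integrable (fun y => ‖ξ y‖ ^ 2) ν :=
  (memLp_two_iff_integrable_sq_norm (Lp.aestronglyMeasurable ξ)).1 (Lp.memLp ξ)

theorem IsFld.norm_sq_fld (hT : IsFld ν T) (ξ : Lp H 2 ν) :
    ‖fld ν T ξ‖ ^ 2 = ∫ y, ‖T y (ξ y)‖ ^ 2 ∂ν := by
  rw [norm_sq_eq_integral]
  refine integral_congr_ae ?_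
  filter_upwards [hT.coeFn ξ] with y hy
  rw [hy]

theorem fld_adjoint [CompleteSpace H] [CompleteSpace H'] (hT : IsFld ν T)
    (hT' : IsFld ν fun y => ContinuousLinearMap.adjoint (T y)) :
    ContinuousLinearMap.adjoint (fld ν T) = fld ν fun y => ContinuousLinearMap.adjoint (T y) := by
  symm
  rw [ContinuousLinearMap.eq_adjoint_iff]
  intro η ξ
  rw [hT.inner_fld, L2.inner_def]
  refine integral_congr_ae ?_
  filter_upwards [hT'.coeFn η] with y hy
  rw [hy, ContinuousLinearMap.adjoint_inner_left]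

theorem star_fld [CompleteSpace H] {T : Y → H →L[ℂ] H} (hT : IsFld ν T)
    (hT' : IsFld ν fun y => star (T y)) : star (fld ν T) = fld ν fun y => star (T y) :=
  fld_adjoint hT hT'

theorem countable_of_orthonormal [SecondCountableTopology H] {κ : Type*} {b : κ → H}
    (hb : Orthonormal ℂ b) : Countable κ := by
  refine Pairwise.countable_of_isOpen_disjoint (s := fun i => Metric.ball (b i) (1 / 2))
    (fun i j hij => Metric.ball_disjoint_ball ?_) (fun _ => Metric.isOpen_ball)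
    (fun _ => Metric.nonempty_ball.2 (by norm_num))
  have h := norm_sub_sq (𝕜 := ℂ) (b i) (b j)
  rw [hb.inner_eq_zero hij, hb.norm_eq_one, hb.norm_eq_one] at h
  rw [dist_eq_norm]
  refine le_of_sq_le_sq ?_ (norm_nonneg _)
  rw [h]; norm_num

/-- for a separable target the adjoint field is automatically admissible -/
theorem IsFld.adjoint [CompleteSpace H] [CompleteSpace H'] [SecondCountableTopology H]
    (hT : IsFld ν T) : IsFld ν fun y => ContinuousLinearMap.adjoint (T y) := by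
  refine ⟨fun w => ?_, hT.bdd.imp fun C hC => hC.mono fun y hy => by
    rwa [LinearIsometryEquiv.norm_map]⟩
  obtain ⟨s, b, hb⟩ := exists_hilbertBasis ℂ H
  have : Countable s := countable_of_orthonormal b.orthonormal
  have hc : ∀ i : s, AEStronglyMeasurable
      (fun y => ⟪b i, ContinuousLinearMap.adjoint (T y) w⟫_ℂ • b i) ν := fun i => by
    simp only [ContinuousLinearMap.adjoint_inner_right]
    exact ((hT.meas (b i)).inner aestronglyMeasurable_const).smul_const _
  refine aestronglyMeasurable_of_tendsto_ae (atTop : Filter (Finset s))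
    (f := fun F y => ∑ i ∈ F, ⟪b i, ContinuousLinearMap.adjoint (T y) w⟫_ℂ • b i)
    (fun F => Finset.aestronglyMeasurable_fun_sum F fun i _ => hc i)
    (Eventually.of_forall fun y => ?_)
  have := b.hasSum_repr (ContinuousLinearMap.adjoint (T y) w)
  simp only [HilbertBasis.repr_apply_apply] at this
  exact this

end Crest.Agent.N111
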