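import Mathlib

/-!
# Row 111: unitary representations and weak limits along ultrafilters.
-/

set_option autoImplicit false

namespace Crest.Agent.N111

open Topology Filter
open scoped InnerProductSpace

/-- a unitary representation of `K` on `H` -/
structure URep (K H : Type*) [Group K] [NormedAddCommGroup H] [InnerProductSpace ℂ H]
    extends K →* (H →L[ℂ] H) where
  norm_map' : ∀ g v, ‖toFun g v‖ = ‖v‖

namespace URep

variable {K H : Type*} [Group K] [NormedAddCommGroup H] [InnerProductSpace ℂ H]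

instance : FunLike (URep K H) K (H →L[ℂ] H) where
  coe ρ := ρ.toFun
  coe_injective := by
    rintro ⟨⟨⟨_, _⟩, _⟩, _⟩ ⟨⟨⟨_, _⟩, _⟩, _⟩ h
    congr

instance : MonoidHomClass (URep K H) K (H →L[ℂ] H) where
  map_mul ρ := ρ.map_mul'
  map_one ρ := ρ.map_one'

/-- constructor from a bare function -/
def mk' (f : K → H →L[ℂ] H) (h1 : f 1 = 1) (hmul : ∀ g h, f (g * h) = f g * f h)
    (hn : ∀ g v, ‖f g v‖ = ‖v‖) : URep K H := ⟨⟨⟨f, h1⟩, hmul⟩, hn⟩

@[simp] lemma mk'_apply (f : K → H →L[ℂ] H) (h1 hmul hn) (g : K) : mk' f h1 hmul hn g = f g := rfl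

variable (ρ : URep K H)

@[simp] lemma norm_map (g : K) (v : H) : ‖ρ g v‖ = ‖v‖ := ρ.norm_map' g v

lemma mul_apply (g h : K) (v : H) : ρ (g * h) v = ρ g (ρ h v) := by rw [map_mul]; rfl

@[simp] lemma apply_inv_apply (g : K) (v : H) : ρ g (ρ g⁻¹ v) = v := by
  rw [← mul_apply]; simp

@[simp] lemma inv_apply_apply (g : K) (v : H) : ρ g⁻¹ (ρ g v) = v := by
  rw [← mul_apply]; simp

@[simp] lemma mul_inv_self (g : K) : ρ g * ρ g⁻¹ = 1 := by rw [← map_mul]; simp

@[simp] lemma inv_mul_self (g : K) : ρ g⁻¹ * ρ g = 1 := by rw [← map_mul]; simp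

@[simp] lemma inner_map_map (g : K) (v w : H) : ⟪ρ g v, ρ g w⟫_ℂ = ⟪v, w⟫_ℂ :=
  LinearIsometry.inner_map_map (⟨(ρ g : H →ₗ[ℂ] H), ρ.norm_map g⟩ : H →ₗᵢ[ℂ] H) v w

lemma inner_left (g : K) (v w : H) : ⟪ρ g v, w⟫_ℂ = ⟪v, ρ g⁻¹ w⟫_ℂ := by
  rw [← ρ.inner_map_map g v, apply_inv_apply]

lemma inner_right (g : K) (v w : H) : ⟪v, ρ g w⟫_ℂ = ⟪ρ g⁻¹ v, w⟫_ℂ := by
  rw [ρ.inner_left, inv_inv]

lemma norm_le (g : K) : ‖ρ g‖ ≤ 1 :=
  ContinuousLinearMap.opNorm_le_bound _ zero_le_one fun v => by simp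

lemma star_apply [CompleteSpace H] (g : K) : star (ρ g) = ρ g⁻¹ :=
  ((ContinuousLinearMap.eq_adjoint_iff _ _).2 fun v w => (ρ.inner_right g v w).symm).symm

lemma mem_unitary [CompleteSpace H] (g : K) : ρ g ∈ unitary (H →L[ℂ] H) := by
  rw [Unitary.mem_iff, star_apply]; simp

/-- restriction along a homomorphism -/
def comp {L : Type*} [Group L] (f : L →* K) : URep L H :=
  mk' (fun g => ρ (f g)) (by simp) (by simp) (by simp)

@[simp] lemma comp_apply {L : Type*} [Group L] (f : L →* K) (g : L) : ρ.comp f g = ρ (f g) := rfl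

/-- the trivial representation -/
def triv (K H : Type*) [Group K] [NormedAddCommGroup H] [InnerProductSpace ℂ H] : URep K H :=
  mk' (fun _ => 1) rfl (by simp) (by simp)

@[simp] lemma triv_apply (g : K) : triv K H g = 1 := rfl

/-- the stabiliser of a vector -/
def stab (v : H) : Subgroup K where
  carrier := {g | ρ g v = v}
  one_mem' := by simp
  mul_mem' {a b} ha hb := by
    change ρ (a * b) v = v
    rw [mul_apply, hb, ha]
  inv_mem' {a} ha := by
    change ρ a⁻¹ v = v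
    conv_lhs => rw [← ha]
    simp

lemma mem_stab {v : H} {g : K} : g ∈ ρ.stab v ↔ ρ g v = v := Iff.rfl

/-- the invariant vectors -/
def fix : Submodule ℂ H where
  carrier := {v | ∀ g, ρ g v = v}
  zero_mem' g := by simp
  add_mem' ha hb g := by rw [map_add, ha, hb]
  smul_mem' c _ ha g := by rw [map_smul, ha]

lemma mem_fix {v : H} : v ∈ ρ.fix ↔ ∀ g, ρ g v = v := Iff.rfl

lemma isClosed_fix : IsClosed (ρ.fix : Set H) := by
  have : (ρ.fix : Set H) = ⋂ g, {v | ρ g v = v} := by ext v; simp [mem_fix]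
  rw [this]
  exact isClosed_iInter fun g => isClosed_eq (ρ g).continuous continuous_id

instance [CompleteSpace H] : ρ.fix.HasOrthogonalProjection :=
  have : CompleteSpace ρ.fix := ρ.isClosed_fix.completeSpace_coe
  inferInstance

/-- the projection onto the invariant vectors -/
noncomputable def P [CompleteSpace H] : H →L[ℂ] H := ρ.fix.starProjection

section P
variable [CompleteSpace H]

lemma P_mem (v : H) : ρ.P v ∈ ρ.fix := Submodule.starProjection_apply_mem _ _

@[simp] lemma apply_P (g : K) (v : H) : ρ g (ρ.P v) = ρ.P v := ρ.P_mem v g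

lemma P_of_mem {v : H} (hv : v ∈ ρ.fix) : ρ.P v = v := Submodule.starProjection_eq_self_iff.2 hv

lemma inner_sub_P {w : H} (hw : w ∈ ρ.fix) (v : H) : ⟪w, v - ρ.P v⟫_ℂ = 0 :=
  Submodule.inner_right_of_mem_orthogonal hw (Submodule.sub_starProjection_mem_orthogonal v)

lemma inner_P_of_mem {w : H} (hw : w ∈ ρ.fix) (v : H) : ⟪w, ρ.P v⟫_ℂ = ⟪w, v⟫_ℂ := by
  have := ρ.inner_sub_P hw v
  rw [inner_sub_right, sub_eq_zero] at this
  exact this.symm

lemma inner_P_left (v w : H) : ⟪ρ.P v, w⟫_ℂ = ⟪v, ρ.P w⟫_ℂ :=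
  Submodule.inner_starProjection_left_eq_right _ v w

@[simp] lemma P_apply (g : K) (v : H) : ρ.P (ρ g v) = ρ.P v := by
  refine ext_inner_left ℂ fun w => ?_
  rw [← inner_P_left, ← inner_P_left, inner_right, apply_P]

lemma norm_P_le (v : H) : ‖ρ.P v‖ ≤ ‖v‖ := Submodule.norm_starProjection_apply_le _ v

end P

lemma norm_conj_sub {v : H} {a b : K} (ha : a ∈ ρ.stab v) (hb : b ∈ ρ.stab v) (g : K) :
    ‖ρ (a * g * b) v - v‖ = ‖ρ g v - v‖ := by
  rw [mul_apply, mul_apply, hb, ← ρ.norm_map a (ρ g v - v), map_sub, ha]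

variable [TopologicalSpace K]

/-- strong continuity -/
def Cont : Prop := ∀ v, Continuous fun g => ρ g v

variable {ρ}

lemma cont_of_dense [IsTopologicalGroup K] {D : Set H} (hD : Dense D)
    (h : ∀ v ∈ D, Tendsto (fun g => ρ g v) (𝓝 1) (𝓝 v)) : ρ.Cont := by
  have h1 : ∀ v, Tendsto (fun g => ρ g v) (𝓝 1) (𝓝 v) := fun v => by
    rw [Metric.tendsto_nhds]
    intro ε hε
    obtain ⟨w, hw, hvw⟩ := hD.exists_dist_lt v (by positivity : 0 < ε / 3)
    filter_upwards [Metric.tendsto_nhds.1 (h w hw) _ (by positivity : 0 < ε / 3)] with g hg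
    have e : dist (ρ g v) (ρ g w) = dist v w := by
      rw [dist_eq_norm, dist_eq_norm, ← map_sub, norm_map]
    linarith [dist_triangle4 (ρ g v) (ρ g w) w v, dist_comm v w]
  intro v
  refine continuous_iff_continuousAt.2 fun g₀ => ?_
  have h2 : Tendsto (fun g : K => g * g₀⁻¹) (𝓝 g₀) (𝓝 1) :=
    (by fun_prop : Continuous fun g : K => g * g₀⁻¹).tendsto' _ _ (by simp)
  refine ((h1 (ρ g₀ v)).comp h2).congr fun g => ?_
  simp only [Function.comp_apply, ← ρ.mul_apply, inv_mul_cancel_right]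

lemma Cont.comp {L : Type*} [Group L] [TopologicalSpace L] (h : ρ.Cont) {f : L →* K}
    (hf : Continuous f) : (ρ.comp f).Cont := fun v => (h v).comp hf

lemma Cont.tendsto_one (h : ρ.Cont) {α : Type*} {l : Filter α} {u : α → K}
    (hu : Tendsto u l (𝓝 1)) (v : H) : Tendsto (fun t => ‖ρ (u t) v - v‖) l (𝓝 0) := by
  have := ((h v).tendsto 1).comp hu
  rw [map_one, one_apply_eq_self] at this
  exact tendsto_iff_norm_sub_tendsto_zero.1 this

/-- joint continuity -/
lemma Cont.continuous₂ (h : ρ.Cont) {α : Type*} [TopologicalSpace α] {g : α → K} {v : α → H}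
    (hg : Continuous g) (hv : Continuous v) : Continuous fun a => ρ (g a) (v a) := by
  refine continuous_iff_continuousAt.2 fun a₀ => ?_
  have h1 : Tendsto (fun a => ρ (g a) (v a - v a₀)) (𝓝 a₀) (𝓝 0) := by
    rw [tendsto_zero_iff_norm_tendsto_zero]
    simp only [norm_map]
    exact tendsto_iff_norm_sub_tendsto_zero.1 (hv.tendsto a₀)
  have h2 := h1.add (((h (v a₀)).comp hg).tendsto a₀)
  simp only [zero_add, Function.comp_def, ← map_add, sub_add_cancel] at h2
  exact h2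

/-- **Mautner's lemma** -/
theorem Cont.mautner (h : ρ.Cont) {α : Type*} {l : Filter α} [l.NeBot] {v : H} {a : α → K} {u : K}
    (ha : ∀ t, a t ∈ ρ.stab v) (hu : Tendsto (fun t => a t * u * (a t)⁻¹) l (𝓝 1)) :
    u ∈ ρ.stab v := by
  have h1 := h.tendsto_one hu v
  simp only [ρ.norm_conj_sub (ha _) (inv_mem (ha _))] at h1
  exact sub_eq_zero.1 (norm_eq_zero.1 (tendsto_const_nhds_iff.1 h1))

end URep

/-! ### weak limits along ultrafilters -/

section WLim

variable {α H H' : Type*} [NormedAddCommGroup H] [InnerProductSpace ℂ H]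
  [NormedAddCommGroup H'] [InnerProductSpace ℂ H'] [CompleteSpace H']

theorem exists_tendsto_ultra (U : Ultrafilter α) {f : α → ℂ} {C : ℝ} (hf : ∀ᶠ t in U, ‖f t‖ ≤ C) :
    ∃ z, Tendsto f U (𝓝 z) := by
  obtain ⟨z, -, hz⟩ := (isCompact_closedBall (0 : ℂ) C).ultrafilter_le_nhds (U.map f)
    (by
      rw [le_principal_iff, Ultrafilter.coe_map, mem_map]
      exact hf.mono fun t ht => mem_closedBall_zero_iff.2 ht)
  exact ⟨z, hz⟩

theorem exists_wlim_vec (U : Ultrafilter α) {x : α → H'} {C : ℝ} (hx : ∀ᶠ t in U, ‖x t‖ ≤ C) :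
    ∃ z, ‖z‖ ≤ C ∧ ∀ w, Tendsto (fun t => ⟪w, x t⟫_ℂ) U (𝓝 ⟪w, z⟫_ℂ) := by
  have hb : ∀ w, ∀ᶠ t in U, ‖⟪x t, w⟫_ℂ‖ ≤ C * ‖w‖ := fun w => hx.mono fun t ht =>
    (norm_inner_le_norm _ _).trans (by gcongr)
  choose φ hφ using fun w => exists_tendsto_ultra U (hb w)
  have hC : 0 ≤ C := by
    obtain ⟨t, ht⟩ := hx.exists
    exact (norm_nonneg _).trans ht
  let ψ : H' →L[ℂ] ℂ := LinearMap.mkContinuous
    { toFun := φ
      map_add' := fun v w => tendsto_nhds_unique (hφ (v + w))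
        (by simpa only [inner_add_right] using (hφ v).add (hφ w))
      map_smul' := fun c v => tendsto_nhds_unique (hφ (c • v))
        (by simpa only [inner_smul_right, RingHom.id_apply, smul_eq_mul]
          using (hφ v).const_mul c) } C
    fun w => le_of_tendsto (hφ w).norm (hb w)
  refine ⟨(InnerProductSpace.toDual ℂ H').symm ψ, ?_, fun w => ?_⟩
  · rw [LinearIsometryEquiv.norm_map]
    exact LinearMap.mkContinuous_norm_le _ hC _
  · have h1 := (Complex.continuous_conj.tendsto _).comp (hφ w)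
    rw [← inner_conj_symm, InnerProductSpace.toDual_symm_apply]
    simp only [Function.comp_def, inner_conj_symm] at h1
    exact h1

/-- weak operator convergence along a filter -/
def WTends (l : Filter α) (T : α → H →L[ℂ] H') (T₀ : H →L[ℂ] H') : Prop :=
  ∀ w v, Tendsto (fun t => ⟪w, T t v⟫_ℂ) l (𝓝 ⟪w, T₀ v⟫_ℂ)

omit [CompleteSpace H'] in
theorem WTends.unique {l : Filter α} [l.NeBot] {T : α → H →L[ℂ] H'} {A B : H →L[ℂ] H'}
    (hA : WTends l T A) (hB : WTends l T B) : A = B := by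
  ext v
  exact ext_inner_left ℂ fun w => tendsto_nhds_unique (hA w v) (hB w v)

theorem exists_wtends (U : Ultrafilter α) {T : α → H →L[ℂ] H'} {C : ℝ}
    (hT : ∀ᶠ t in U, ‖T t‖ ≤ C) : ∃ T₀, ‖T₀‖ ≤ C ∧ WTends U T T₀ := by
  have hb : ∀ v, ∀ᶠ t in U, ‖T t v‖ ≤ C * ‖v‖ := fun v => hT.mono fun t ht =>
    (T t).le_of_opNorm_le ht v
  choose z hz hz' using fun v => exists_wlim_vec U (hb v)
  have hC : 0 ≤ C := by
    obtain ⟨t, ht⟩ := hT.exists
    exact (norm_nonneg _).trans ht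
  refine ⟨LinearMap.mkContinuous
    { toFun := z
      map_add' := fun u v => ext_inner_left ℂ fun w => tendsto_nhds_unique (hz' (u + v) w)
        (by simpa only [map_add, inner_add_right] using (hz' u w).add (hz' v w))
      map_smul' := fun c v => ext_inner_left ℂ fun w => tendsto_nhds_unique (hz' (c • v) w)
        (by simpa only [map_smul, inner_smul_right, RingHom.id_apply]
          using (hz' v w).const_mul c) } C hz,
    LinearMap.mkContinuous_norm_le _ hC _, fun w v => hz' v w⟩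

open Classical in
/-- the weak operator limit along a filter (zero if there is none) -/
noncomputable def wlim (l : Filter α) (T : α → H →L[ℂ] H') : H →L[ℂ] H' :=
  if h : ∃ T₀, WTends l T T₀ then h.choose else 0

omit [CompleteSpace H'] in
theorem WTends.wlim_eq {l : Filter α} [l.NeBot] {T : α → H →L[ℂ] H'} {A : H →L[ℂ] H'}
    (hA : WTends l T A) : wlim l T = A := by
  have h : ∃ T₀, WTends l T T₀ := ⟨A, hA⟩
  rw [wlim, dif_pos h]
  exact h.choose_spec.unique hA

theorem wtends_wlim (U : Ultrafilter α) {T : α → H →L[ℂ] H'} {C : ℝ}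
    (hT : ∀ᶠ t in U, ‖T t‖ ≤ C) : WTends U T (wlim U T) := by
  obtain ⟨A, -, hA⟩ := exists_wtends U hT
  rwa [hA.wlim_eq]

theorem norm_wlim_le (U : Ultrafilter α) {T : α → H →L[ℂ] H'} {C : ℝ}
    (hT : ∀ᶠ t in U, ‖T t‖ ≤ C) : ‖wlim U T‖ ≤ C := by
  obtain ⟨A, h, hA⟩ := exists_wtends U hT
  rwa [hA.wlim_eq]

end WLim

end Crest.Agent.N111
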