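import Crest.Agent.N111.Lat.G
import Crest.Agent.N111.Lat.Rep

/-!
# Row 111: Mautner phenomenon, mixing and mean ergodic theorems for `SL(3, ℝ)`.
-/

set_option autoImplicit false

namespace Crest.Agent.N111

open Topology Filter
open scoped InnerProductSpace

variable {H : Type*} [NormedAddCommGroup H] [InnerProductSpace ℂ H] {ρ : URep G H}

lemma tv_zpow {i j : Fin 3} (hij : i ≠ j) (b : ℝ) (n : ℤ) : tv hij b ^ n = tv hij (n * b) := by
  induction n using Int.induction_on with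
  | zero => simp
  | succ n ih => rw [zpow_add_one, ih, ← tv_add]; push_cast; ring_nf
  | pred n ih => rw [zpow_sub_one, ih, tv_inv, ← tv_add]; push_cast; ring_nf

lemma dg_zpow (a b : ℝ) (n : ℤ) : dg a b ^ n = dg (n * a) (n * b) := by
  induction n using Int.induction_on with
  | zero => simp
  | succ n ih => rw [zpow_add_one, ih, ← dg_add]; push_cast; ring_nf
  | pred n ih => rw [zpow_sub_one, ih, dg_inv, ← dg_add]; push_cast; ring_nf

lemma dg_pow (a b : ℝ) (n : ℕ) : dg a b ^ n = dg (n * a) (n * b) := by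
  simpa using dg_zpow a b n

lemma dgl_mul (s a b : ℝ) (i : Fin 3) : dgl (s * a) (s * b) i = s * dgl a b i := by
  fin_cases i <;> simp [dgl]; ring

lemma tendsto_dg_conj_tv {α : Type*} {l : Filter α} {a b : α → ℝ} {i j : Fin 3} (hij : i ≠ j)
    (h : Tendsto (fun t => dgl (a t) (b t) j - dgl (a t) (b t) i) l atTop) (x : ℝ) :
    Tendsto (fun t => dg (a t) (b t) * tv hij x * (dg (a t) (b t))⁻¹) l (𝓝 1) := by
  simp only [dg_conj_tv]
  have h1 := (Real.tendsto_exp_neg_atTop_nhds_zero.comp h).mul_const x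
  have h2 := ((continuous_tv hij).tendsto _).comp h1
  simpa [Function.comp_def] using h2

namespace URep.Cont

theorem tv_mem_of_dg (hρ : ρ.Cont) {v : H} {a b : ℝ} (h : dg a b ∈ ρ.stab v) {i j : Fin 3}
    (hij : i ≠ j) (hne : dgl a b i ≠ dgl a b j) (x : ℝ) : tv hij x ∈ ρ.stab v := by
  obtain ⟨e, he⟩ : ∃ e : ℤ, 0 < e * (dgl a b j - dgl a b i) := by
    rcases lt_or_gt_of_ne hne with h | h
    · exact ⟨1, by simpa using h⟩
    · exact ⟨-1, by simpa using h⟩
  refine hρ.mautner (l := atTop) (a := fun n : ℕ => dg ((n * e : ℤ) * a) ((n * e : ℤ) * b))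
    (fun n => dg_zpow a b _ ▸ zpow_mem h _) (tendsto_dg_conj_tv hij ?_ x)
  refine (tendsto_natCast_atTop_atTop.atTop_mul_const he).congr fun n => ?_
  rw [dgl_mul, dgl_mul]; push_cast; ring

theorem dg_mem_of_tv (hρ : ρ.Cont) {v : H} {i j : Fin 3} (hij : i ≠ j) {b : ℝ} (hb : b ≠ 0)
    (h : tv hij b ∈ ρ.stab v) : ∃ p q : ℝ, dg p q ∈ ρ.stab v ∧ Function.Injective (dgl p q) := by
  let e : Fin 3 → ℝ := fun k => if k = i then Real.log 2 else if k = j then -Real.log 2 else 0
  have he : dgl (e 0) (e 1) = e := by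
    ext k
    fin_cases i <;> fin_cases j <;> simp at hij <;> fin_cases k <;> simp [dgl, e]
  have hl : 0 < Real.log 2 := Real.log_pos one_lt_two
  refine ⟨e 0, e 1, ?_, ?_⟩
  · have key : ∀ n : ℕ, tv hij b ^ (2 * (n + 1) : ℤ) * tv hij.symm (1 / (2 * (n + 1) * b))
        * tv hij b ^ (-(n + 1) : ℤ) = dg (e 0) (e 1) * tv hij.symm (1 / ((n + 1) * b)) := by
      intro n
      have hn : (n : ℝ) + 1 ≠ 0 := by positivity
      rw [tv_zpow, tv_zpow]
      ext p q
      simp only [mul_tv_apply, tv_apply, dg_apply, he, e]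
      fin_cases i <;> fin_cases j <;> simp at hij <;> fin_cases p <;> fin_cases q <;>
        simp [Real.exp_neg, Real.exp_log] <;> field_simp <;> ring
    have h0 : Tendsto (fun n : ℕ => 1 / (((n : ℝ) + 1) * b)) atTop (𝓝 0) := by
      simpa [mul_comm] using tendsto_one_div_add_atTop_nhds_zero_nat.mul_const b⁻¹
    have h0' : Tendsto (fun n : ℕ => 1 / (2 * ((n : ℝ) + 1) * b)) atTop (𝓝 0) := by
      refine (zero_div (2 : ℝ) ▸ h0.div_const 2).congr fun n => ?_
      rw [div_div]; ring_nf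
    have h1 := hρ.tendsto_one (u := fun n : ℕ => tv hij.symm (1 / (2 * ((n : ℝ) + 1) * b)))
      (tv_zero hij.symm ▸ ((continuous_tv hij.symm).tendsto 0).comp h0') v
    have h2 : Tendsto (fun n : ℕ => dg (e 0) (e 1) * tv hij.symm (1 / ((n + 1) * b))) atTop
        (𝓝 (dg (e 0) (e 1))) := by
      simpa using (((continuous_tv hij.symm).tendsto 0).comp h0).const_mul (dg (e 0) (e 1))
    have h3 := ((((hρ v).tendsto _).comp h2).sub_const v).norm
    refine sub_eq_zero.1 (norm_eq_zero.1 (tendsto_nhds_unique h3 (h1.congr fun n => ?_)))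
    simp only [Function.comp_apply, ← key, ρ.norm_conj_sub (zpow_mem h _) (zpow_mem h _)]
  · rw [he]
    intro k l hkl
    simp only [e] at hkl
    fin_cases i <;> fin_cases j <;> simp at hij <;> fin_cases k <;> fin_cases l <;>
      simp at hkl ⊢ <;> linarith

/-- a vector fixed by one non-trivial elementary matrix is `G`-invariant -/
theorem fix_of_tv (hρ : ρ.Cont) {v : H} {i j : Fin 3} (hij : i ≠ j) {b : ℝ} (hb : b ≠ 0)
    (h : ρ (tv hij b) v = v) : v ∈ ρ.fix := by
  obtain ⟨p, q, h1, h2⟩ := hρ.dg_mem_of_tv hij hb h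
  have := subgroup_eq_top (ρ.stab v) fun k l hkl x => hρ.tv_mem_of_dg h1 hkl (h2.ne hkl) x
  exact fun g => (this ▸ Subgroup.mem_top g : g ∈ ρ.stab v)

/-- a vector fixed by one non-trivial positive diagonal matrix is `G`-invariant -/
theorem fix_of_dg (hρ : ρ.Cont) {v : H} {a b : ℝ} (hab : a ≠ 0 ∨ b ≠ 0)
    (h : ρ (dg a b) v = v) : v ∈ ρ.fix := by
  by_cases h1 : dgl a b 0 = dgl a b 1
  · have h2 : dgl a b 0 ≠ dgl a b 2 := by
      simp only [dgl, Matrix.cons_val_zero, Matrix.cons_val_one, Matrix.cons_val] at h1 ⊢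
      rcases hab with h | h <;> intro h' <;> apply h <;> linarith
    exact hρ.fix_of_tv (by decide : (0 : Fin 3) ≠ 2) one_ne_zero (hρ.tv_mem_of_dg h _ h2 1)
  · exact hρ.fix_of_tv (by decide : (0 : Fin 3) ≠ 1) one_ne_zero (hρ.tv_mem_of_dg h _ h1 1)

theorem fix_of_conj {v : H} {u : G} (hu : ∀ w, ρ u w = w → w ∈ ρ.fix) (g : G)
    (h : ρ (g * u * g⁻¹) v = v) : v ∈ ρ.fix := by
  have h1 : ρ g⁻¹ v ∈ ρ.fix := hu _ (by
    conv_rhs => rw [← h]
    simp only [← ρ.mul_apply, mul_assoc, inv_mul_cancel_left])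
  have h2 : v = ρ g⁻¹ v := by rw [← h1 g, ρ.apply_inv_apply]
  exact h2 ▸ h1

theorem fix_of_conj_tv (hρ : ρ.Cont) {v : H} {i j : Fin 3} (hij : i ≠ j) {b : ℝ} (hb : b ≠ 0)
    (g : G) (h : ρ (g * tv hij b * g⁻¹) v = v) : v ∈ ρ.fix :=
  fix_of_conj (fun _ => hρ.fix_of_tv hij hb) g h

theorem fix_of_conj_dg (hρ : ρ.Cont) {v : H} {a b : ℝ} (hab : a ≠ 0 ∨ b ≠ 0)
    (g : G) (h : ρ (g * dg a b * g⁻¹) v = v) : v ∈ ρ.fix :=
  fix_of_conj (fun _ => hρ.fix_of_dg hab) g h

variable [CompleteSpace H]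

/-- **Mixing**, abstract form: `a t` contracts some element `u` whose fixed vectors are invariant. -/
theorem mixing_of (hρ : ρ.Cont) {α : Type*} {l : Filter α} {a : α → G} {u : G}
    (hu : ∀ w, ρ u w = w → w ∈ ρ.fix) (h : Tendsto (fun t => (a t)⁻¹ * u * a t) l (𝓝 1)) :
    WTends l (fun t => ρ (a t)) ρ.P := by
  intro w v
  have key : Tendsto (fun t => ⟪w, ρ (a t) (v - ρ.P v)⟫_ℂ) l (𝓝 0) := by
    refine tendsto_iff_ultrafilter _ _ _ |>.2 fun U hU => ?_
    obtain ⟨z, -, hz⟩ := exists_wlim_vec U (x := fun t => ρ (a t) (v - ρ.P v))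
      (Eventually.of_forall fun t => (ρ.norm_map _ _).le)
    have h1 : ρ u z = z := by
      refine ext_inner_left ℂ fun y => ?_
      rw [ρ.inner_right]
      refine tendsto_nhds_unique (hz _) ?_
      have h2 : Tendsto (fun t => ⟪y, ρ (a t) (ρ ((a t)⁻¹ * u * a t) (v - ρ.P v) - (v - ρ.P v))⟫_ℂ)
          U (𝓝 0) := by
        refine squeeze_zero_norm (fun t => norm_inner_le_norm _ _) ?_
        simp only [ρ.norm_map]
        simpa using ((hρ.tendsto_one h (v - ρ.P v)).mono_left hU).const_mul ‖y‖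
      have h3 := h2.add (hz y)
      rw [zero_add] at h3
      refine h3.congr fun t => ?_
      rw [map_sub, inner_sub_right, sub_add_cancel, ← ρ.inner_right, ← ρ.mul_apply,
        ← ρ.mul_apply, mul_assoc, mul_inv_cancel_left]
    have h4 := hu z h1
    have h5 : ⟪z, z⟫_ℂ = 0 := by
      refine tendsto_nhds_unique (hz z) (tendsto_const_nhds.congr fun t => ?_)
      rw [ρ.inner_right, h4, ρ.inner_sub_P h4]
    have := hz w
    rwa [inner_self_eq_zero.1 h5, inner_zero_right] at this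
  have := key.add_const ⟪w, ρ.P v⟫_ℂ
  rw [zero_add] at this
  refine this.congr fun t => ?_
  rw [map_sub, inner_sub_right, ρ.apply_P, sub_add_cancel]

/-- **Mixing along diagonal families** (Howe–Moore for `A`). -/
theorem mixing (hρ : ρ.Cont) {α : Type*} {l : Filter α} {a b : α → ℝ} {i j : Fin 3}
    (h : Tendsto (fun t => dgl (a t) (b t) i - dgl (a t) (b t) j) l atTop) :
    WTends l (fun t => ρ (dg (a t) (b t))) ρ.P := by
  rcases l.eq_or_neBot with rfl | hl
  · exact fun _ _ => tendsto_bot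
  have hij : i ≠ j := by
    rintro rfl
    simp only [sub_self] at h
    exact not_tendsto_const_atTop _ _ h
  refine hρ.mixing_of (u := tv hij 1) (fun _ => hρ.fix_of_tv hij one_ne_zero) ?_
  have := tendsto_dg_conj_tv (l := l) (a := fun t => -a t) (b := fun t => -b t) hij
    (h.congr fun t => by rw [dgl_neg, dgl_neg]; ring) 1
  simpa only [dg_inv, neg_neg] using this

/-- **Mean ergodic theorem** for an element whose fixed vectors are invariant. -/
theorem mean_ergodic_of {u : G} (hu : ∀ w, ρ u w = w → w ∈ ρ.fix) (v : H) :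
    Tendsto (fun n : ℕ => (n : ℂ)⁻¹ • ∑ k ∈ Finset.range n, ρ (u ^ k) v) atTop (𝓝 (ρ.P v)) := by
  have h := (ρ u).tendsto_birkhoffAverage_orthogonalProjection (ρ.norm_le u) v
  have e : (((ρ u).eqLocus (1 : H →L[ℂ] H)).orthogonalProjectionOnto v : H) = ρ.P v := by
    symm
    refine Submodule.eq_starProjection_of_mem_of_inner_eq_zero (hu _ ?_) fun w hw => ?_
    · exact (((ρ u).eqLocus (1 : H →L[ℂ] H)).orthogonalProjectionOnto v).2
    · exact Submodule.inner_left_of_mem_orthogonal (K := (ρ u).eqLocus (1 : H →L[ℂ] H)) (hw u)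
        (Submodule.sub_starProjection_mem_orthogonal v)
  rw [e] at h
  refine h.congr fun n => ?_
  simp only [birkhoffAverage, birkhoffSum, id_eq, map_pow, FunLike.coe_pow_eq_iterate]

theorem mean_ergodic_dg (hρ : ρ.Cont) {a b : ℝ} (hab : a ≠ 0 ∨ b ≠ 0) (v : H) :
    Tendsto (fun n : ℕ => (n : ℂ)⁻¹ • ∑ k ∈ Finset.range n, ρ (dg (k * a) (k * b)) v) atTop
      (𝓝 (ρ.P v)) := by
  simpa only [dg_pow] using mean_ergodic_of (u := dg a b) (fun _ => hρ.fix_of_dg hab) v

theorem mean_ergodic_tv (hρ : ρ.Cont) {i j : Fin 3} (hij : i ≠ j) {b : ℝ} (hb : b ≠ 0) (v : H) :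
    Tendsto (fun n : ℕ => (n : ℂ)⁻¹ • ∑ k ∈ Finset.range n, ρ (tv hij (k * b)) v) atTop
      (𝓝 (ρ.P v)) := by
  have e : ∀ k : ℕ, tv hij b ^ k = tv hij (k * b) := fun k => by simpa using tv_zpow hij b k
  simpa only [e] using mean_ergodic_of (u := tv hij b) (fun _ => hρ.fix_of_tv hij hb) v

end URep.Cont

end Crest.Agent.N111
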