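import Crest.Agent.N111.Lat.Cont
import Crest.Agent.N111.Lat.Fld
import Crest.Agent.N111.Lat.Mautner

/-!
# Row 111: the induced representation on `L²(X; H)`.

`(ind π g ξ)(x) = π (coc g (g⁻¹ • x)) (ξ (g⁻¹ • x))`, i.e. `(ind π g ξ)(g • x) = π (coc g x) (ξ x)`.
-/

set_option autoImplicit false

namespace Crest.Agent.N111

open MeasureTheory Topology Filter
open scoped ENNReal InnerProductSpace symmDiff

variable {H H' : Type*} [NormedAddCommGroup H] [InnerProductSpace ℂ H]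
  [NormedAddCommGroup H'] [InnerProductSpace ℂ H']

/-- `L²(X; H)` -/
abbrev L2X (H : Type*) [NormedAddCommGroup H] : Type _ := Lp H 2 μ

lemma ae_smul (g : G) {p : X → Prop} (h : ∀ᵐ x ∂μ, p x) : ∀ᵐ x ∂μ, p (g • x) :=
  (measurePreserving_smul g).quasiMeasurePreserving.ae h

lemma ae_smul_iff (g : G) {p : X → Prop} : (∀ᵐ x ∂μ, p (g • x)) ↔ ∀ᵐ x ∂μ, p x :=
  ⟨fun h => by simpa using ae_smul g⁻¹ h, ae_smul g⟩

lemma isFld_coc (Φ : Γ → H →L[ℂ] H') {C : ℝ} (hΦ : ∀ γ, ‖Φ γ‖ ≤ C) (g : G) :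
    IsFld μ fun x => Φ (coc g x) :=
  IsFld.of_countable (measurable_coc measurable_const measurable_id) Φ hΦ

lemma IsFld.smul_arg {T : X → H →L[ℂ] H'} (hT : IsFld μ T) (g : G) : IsFld μ fun x => T (g • x) :=
  hT.comp_qmp (measurePreserving_smul g).quasiMeasurePreserving

/-- translation `(tr g ξ)(x) = ξ (g⁻¹ • x)` -/
noncomputable def tr (H : Type*) [NormedAddCommGroup H] [InnerProductSpace ℂ H] (g : G) :
    L2X H →L[ℂ] L2X H :=
  (Lp.compMeasurePreservingₗᵢ ℂ (fun x : X => g⁻¹ • x)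
    (measurePreserving_smul g⁻¹)).toContinuousLinearMap

lemma tr_coeFn (g : G) (ξ : L2X H) : tr H g ξ =ᵐ[μ] fun x => ξ (g⁻¹ • x) :=
  Lp.coeFn_compMeasurePreserving ξ (measurePreserving_smul g⁻¹)

/-- the operators of the induced representation -/
noncomputable def indOp (π : URep Γ H) (g : G) : L2X H →L[ℂ] L2X H :=
  fld μ (fun x => π (coc g⁻¹ x)⁻¹) * tr H g

lemma indOp_coeFn (π : URep Γ H) (g : G) (ξ : L2X H) :
    indOp π g ξ =ᵐ[μ] fun x => π (coc g (g⁻¹ • x)) (ξ (g⁻¹ • x)) := by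
  filter_upwards [(isFld_coc (fun γ => π γ⁻¹) (fun _ => π.norm_le _) g⁻¹).coeFn (tr H g ξ),
    tr_coeFn g ξ] with x h1 h2
  rw [coc_inv', ← h2, ← h1]
  rfl

/-- the induced representation -/
noncomputable def ind (π : URep Γ H) : URep G (L2X H) :=
  URep.mk' (indOp π)
    (by
      ext1 ξ
      refine Lp.ext ((indOp_coeFn π 1 ξ).trans (Eventually.of_forall fun x => ?_))
      simp)
    (fun g h => by
      ext1 ξ
      refine Lp.ext ?_
      filter_upwards [indOp_coeFn π (g * h) ξ, indOp_coeFn π g (indOp π h ξ),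
        ae_smul g⁻¹ (indOp_coeFn π h ξ)] with x h1 h2 h3
      rw [h1, mul_apply_eq_comp, h2, h3, ← π.mul_apply, coc_mul, mul_inv_rev, mul_smul,
        smul_inv_smul])
    (fun g ξ => by
      rw [← Lp.norm_compMeasurePreserving ξ (measurePreserving_smul g⁻¹)]
      have h : ∀ᵐ x ∂μ, ‖indOp π g ξ x‖
          = ‖Lp.compMeasurePreserving _ (measurePreserving_smul g⁻¹) ξ x‖ := by
        filter_upwards [indOp_coeFn π g ξ,
          Lp.coeFn_compMeasurePreserving ξ (measurePreserving_smul g⁻¹)] with x h1 h2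
        rw [h1, h2, π.norm_map, Function.comp_apply]
      exact le_antisymm (Lp.norm_le_norm_of_ae_le (h.mono fun _ h => h.le))
        (Lp.norm_le_norm_of_ae_le (h.mono fun _ h => h.ge)))

theorem ind_coeFn (π : URep Γ H) (g : G) (ξ : L2X H) :
    ind π g ξ =ᵐ[μ] fun x => π (coc g (g⁻¹ • x)) (ξ (g⁻¹ • x)) := indOp_coeFn π g ξ

theorem ind_coeFn' (π : URep Γ H) (g : G) (ξ : L2X H) :
    ∀ᵐ x ∂μ, ind π g ξ (g • x) = π (coc g x) (ξ x) := by
  filter_upwards [ae_smul g (ind_coeFn π g ξ)] with x hx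
  simpa using hx

theorem ind_eq (π : URep Γ H) (g : G) : ind π g = fld μ (fun x => π (coc g⁻¹ x)⁻¹) * tr H g := rfl

theorem ind_triv (g : G) : ind (URep.triv Γ H) g = tr H g := by simp [ind_eq]

theorem tr_mul_fld {T : X → H →L[ℂ] H'} (hT : IsFld μ T) (g : G) :
    tr H' g ∘L fld μ T = fld μ (fun x => T (g⁻¹ • x)) ∘L tr H g := by
  ext1 ξ
  refine Lp.ext ?_
  filter_upwards [tr_coeFn g (fld μ T ξ), ae_smul g⁻¹ (hT.coeFn ξ),
    (hT.smul_arg g⁻¹).coeFn (tr H g ξ), tr_coeFn g ξ] with x h1 h2 h3 h4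
  rw [ContinuousLinearMap.comp_apply, ContinuousLinearMap.comp_apply, h1, h2, h3, h4]

theorem ind_eq' (π : URep Γ H) (g : G) : ind π g = tr H g * fld μ (fun x => π (coc g x)) := by
  have := tr_mul_fld (isFld_coc π (fun _ => π.norm_le _) g) g
  simp only [coc_inv'] at this
  exact this.symm

lemma IsFld.conj {T : X → H →L[ℂ] H'} (hT : IsFld μ T) (π : URep Γ H) (π' : URep Γ H') (g : G) :
    IsFld μ fun x => π' (coc g⁻¹ x)⁻¹ ∘L T (g⁻¹ • x) ∘L π (coc g⁻¹ x) :=
  (isFld_coc (fun γ => π' γ⁻¹) (fun _ => π'.norm_le _) g⁻¹).comp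
    ((hT.smul_arg g⁻¹).comp (isFld_coc π (fun _ => π.norm_le _) g⁻¹))

/-- covariance of fields under the induced representations -/
theorem ind_fld {T : X → H →L[ℂ] H'} (hT : IsFld μ T) (π : URep Γ H) (π' : URep Γ H') (g : G) :
    ind π' g ∘L fld μ T ∘L ind π g⁻¹
      = fld μ fun x => π' (coc g⁻¹ x)⁻¹ ∘L T (g⁻¹ • x) ∘L π (coc g⁻¹ x) := by
  refine eq_fld (hT.conj π π' g) fun ξ => ?_
  filter_upwards [ind_coeFn π' g (fld μ T (ind π g⁻¹ ξ)), ae_smul g⁻¹ (hT.coeFn (ind π g⁻¹ ξ)),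
    ind_coeFn' π g⁻¹ ξ] with x h1 h2 h3
  simp only [ContinuousLinearMap.comp_apply]
  rw [h1, h2, h3, coc_inv']

/-- amplification of an operator -/
noncomputable def amp (A : H →L[ℂ] H') : L2X H →L[ℂ] L2X H' := fld μ fun _ => A

lemma amp_coeFn (A : H →L[ℂ] H') (ξ : L2X H) : amp A ξ =ᵐ[μ] fun x => A (ξ x) :=
  (IsFld.const A).coeFn ξ

lemma norm_amp_le (A : H →L[ℂ] H') : ‖amp A‖ ≤ ‖A‖ :=
  norm_fld_le (norm_nonneg _) (Eventually.of_forall fun _ => le_rfl)

lemma amp_mul (A B : H →L[ℂ] H) : amp (A * B) = amp A * amp B :=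
  fld_mul (IsFld.const A) (IsFld.const B)

@[simp] lemma amp_one : amp (1 : H →L[ℂ] H) = 1 := fld_one

lemma amp_add (A B : H →L[ℂ] H') : amp (A + B) = amp A + amp B :=
  fld_add (IsFld.const A) (IsFld.const B)

lemma amp_smul (c : ℂ) (A : H →L[ℂ] H') : amp (c • A) = c • amp A :=
  fld_const_smul (IsFld.const A) c

lemma star_amp [CompleteSpace H] (A : H →L[ℂ] H) : star (amp A) = amp (star A) :=
  star_fld (IsFld.const A) (IsFld.const _)

theorem ind_amp {π : URep Γ H} {π' : URep Γ H'} {A : H →L[ℂ] H'}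
    (hA : ∀ γ, π' γ ∘L A = A ∘L π γ) (g : G) : ind π' g ∘L amp A = amp A ∘L ind π g := by
  ext1 ξ
  refine Lp.ext ?_
  filter_upwards [ind_coeFn π' g (amp A ξ), ae_smul g⁻¹ (amp_coeFn A ξ),
    amp_coeFn A (ind π g ξ), ind_coeFn π g ξ] with x h1 h2 h3 h4
  simp only [ContinuousLinearMap.comp_apply]
  rw [h1, h2, h3, h4]
  exact congrArg (fun B : H →L[ℂ] H' => B _) (hA _)

/-- amplification of a representation of another group -/
noncomputable def ampRep {K : Type*} [Group K] (σ : URep K H) : URep K (L2X H) :=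
  URep.mk' (fun k => amp (σ k)) (by simp) (by simp [amp_mul]) fun k ξ =>
    le_antisymm
      (Lp.norm_le_norm_of_ae_le ((amp_coeFn (σ k) ξ).mono fun x hx => by rw [hx, σ.norm_map]))
      (Lp.norm_le_norm_of_ae_le ((amp_coeFn (σ k) ξ).mono fun x hx => by rw [hx, σ.norm_map]))

@[simp] lemma ampRep_apply {K : Type*} [Group K] (σ : URep K H) (k : K) :
    ampRep σ k = amp (σ k) := rfl

theorem norm_le_of_support {Y : Type*} [MeasurableSpace Y] {ν : Measure Y} (ξ : Lp H 2 ν)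
    {B : Set Y} (hB : MeasurableSet B) (hB' : ν B ≠ ∞) {C : ℝ} (hC : 0 ≤ C)
    (h1 : ∀ᵐ y ∂ν, ‖ξ y‖ ≤ C) (h2 : ∀ᵐ y ∂ν, y ∉ B → ξ y = 0) :
    ‖ξ‖ ≤ C * Real.sqrt (ν.real B) := by
  refine le_of_sq_le_sq ?_ (by positivity)
  rw [norm_sq_eq_integral, mul_pow, Real.sq_sqrt measureReal_nonneg, mul_comm, ← smul_eq_mul,
    ← integral_indicator_const _ hB]
  refine integral_mono_ae (integrable_norm_sq ξ)
    ((integrable_indicator_iff hB).2 (integrableOn_const hB')) ?_
  filter_upwards [h1, h2] with y h1 h2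
  by_cases hy : y ∈ B
  · rw [Set.indicator_of_mem hy]; gcongr
  · simp [hy, h2 hy]

/-- **The induced representation is strongly continuous.** -/
theorem ind_cont (π : URep Γ H) : (ind π).Cont := by
  refine URep.cont_of_dense (Lp.simpleFunc.dense (by norm_num)) fun ξ hξ => ?_
  refine Lp.simpleFunc.induction (p := 2) (by norm_num) (by norm_num)
    (P := fun ξ => Tendsto (fun g => ind π g (ξ : L2X H)) (𝓝 1) (𝓝 (ξ : L2X H))) ?_ ?_ ⟨ξ, hξ⟩
  · intro v A hA hA'
    rw [Lp.simpleFunc.coe_indicatorConst, tendsto_iff_norm_sub_tendsto_zero]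
    let B : G → Set X := fun u => {x | coc u x ≠ 1} ∪ ((fun x => u • x) ⁻¹' A) ∆ A
    have hB : ∀ u, MeasurableSet (B u) := fun u => (measurableSet_coc u {γ | γ ≠ 1}).union
      (((measurePreserving_smul u).measurable hA).symmDiff hA)
    have h1 : Tendsto (fun u => μ (B u)) (𝓝 1) (𝓝 0) := by
      have := tendsto_coc_ne_one.add (tendsto_smul_symmDiff hA)
      rw [add_zero] at this
      exact tendsto_of_tendsto_of_tendsto_of_le_of_le tendsto_const_nhds this (fun _ => bot_le)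
        fun u => measure_union_le _ _
    have h2 : Tendsto (fun g : G => 2 * ‖v‖ * Real.sqrt (μ.real (B g⁻¹))) (𝓝 1) (𝓝 0) := by
      have h3 := ((ENNReal.tendsto_toReal ENNReal.zero_ne_top).comp
        (h1.comp (continuous_inv.tendsto' (1 : G) 1 inv_one))).sqrt.const_mul (2 * ‖v‖)
      simpa [Measure.real] using h3
    refine squeeze_zero (fun _ => norm_nonneg _) (fun g => ?_) h2
    set ξ := indicatorConstLp 2 hA hA'.ne v
    have e : ∀ᵐ x ∂μ, (ind π g ξ - ξ) x = π (coc g⁻¹ x)⁻¹ (A.indicator (fun _ => v) (g⁻¹ • x))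
        - A.indicator (fun _ => v) x := by
      filter_upwards [Lp.coeFn_sub (ind π g ξ) ξ, ind_coeFn π g ξ,
        indicatorConstLp_coeFn (p := 2) (hs := hA) (hμs := hA'.ne) (c := v),
        ae_smul g⁻¹ (indicatorConstLp_coeFn (p := 2) (hs := hA) (hμs := hA'.ne) (c := v))]
        with x h1 h2 h3 h4
      rw [h1, Pi.sub_apply, h2, coc_inv', h3, h4]
    refine norm_le_of_support _ (hB g⁻¹) (measure_ne_top _ _) (by positivity)
      (e.mono fun x hx => ?_) (e.mono fun x hx hx' => ?_)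
    · rw [hx]
      refine (norm_sub_le _ _).trans ?_
      rw [π.norm_map, two_mul]
      exact add_le_add (norm_indicator_le_norm_self _ _) (norm_indicator_le_norm_self _ _)
    · simp only [B, Set.mem_union, Set.mem_ofPred_eq, not_or, not_not, Set.mem_symmDiff,
        Set.mem_preimage, not_and] at hx'
      rw [hx, hx'.1]
      by_cases hxA : x ∈ A
      · simp [hxA, hx'.2.2 hxA]
      · have : g⁻¹ • x ∉ A := fun h => hxA (hx'.2.1 h)
        simp [hxA, this]
  · intro f g hf hg _ h1 h2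
    simpa only [AddSubgroup.coe_add, map_add] using h1.add h2

/-! ### constant fields and invariant vectors -/

/-- the constant vector field -/
noncomputable def cst (H : Type*) [NormedAddCommGroup H] [InnerProductSpace ℂ H] :
    H →L[ℂ] L2X H := Lp.constL 2 μ ℂ

lemma cst_coeFn (v : H) : cst H v =ᵐ[μ] fun _ => v := Lp.coeFn_const 2 μ v

@[simp] lemma norm_cst (v : H) : ‖cst H v‖ = ‖v‖ := by
  have : cst H v = Lp.const 2 μ v := rfl
  rw [this, Lp.norm_const' 2 μ v (by norm_num) (by norm_num)]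
  simp

lemma inner_cst_left (v : H) (ξ : L2X H) : ⟪cst H v, ξ⟫_ℂ = ∫ x, ⟪v, ξ x⟫_ℂ ∂μ := by
  rw [L2.inner_def]
  exact integral_congr_ae ((cst_coeFn v).mono fun x hx => by simp only [hx])

@[simp] lemma inner_cst_cst (v w : H) : ⟪cst H v, cst H w⟫_ℂ = ⟪v, w⟫_ℂ := by
  rw [inner_cst_left, integral_congr_ae ((cst_coeFn w).mono fun x hx => by rw [hx])]
  simp

@[simp] lemma amp_cst (A : H →L[ℂ] H') (v : H) : amp A (cst H v) = cst H' (A v) := by
  refine Lp.ext ?_
  filter_upwards [amp_coeFn A (cst H v), cst_coeFn v, cst_coeFn (A v)] with x h1 h2 h3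
  rw [h1, h2, h3]

@[simp] lemma tr_cst (g : G) (v : H) : tr H g (cst H v) = cst H v := by
  refine Lp.ext ?_
  filter_upwards [tr_coeFn g (cst H v), cst_coeFn v, ae_smul g⁻¹ (cst_coeFn v)] with x h1 h2 h3
  rw [h1, h2, h3]

lemma ind_cst_coeFn (π : URep Γ H) (g : G) (v : H) :
    ind π g (cst H v) =ᵐ[μ] fun x => π (coc g⁻¹ x)⁻¹ v := by
  filter_upwards [ind_coeFn π g (cst H v), ae_smul g⁻¹ (cst_coeFn v)] with x h1 h2
  rw [h1, h2, coc_inv']

theorem cst_mem_fix {π : URep Γ H} {v : H} (hv : v ∈ π.fix) : cst H v ∈ (ind π).fix := fun g => by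
  refine Lp.ext ?_
  filter_upwards [ind_cst_coeFn π g v, cst_coeFn v] with x h1 h2
  rw [h1, h2, hv]

/-- a measurable function on `G` that is a.e. invariant under every left translation is constant -/
theorem ae_const_of_mul_invariant {E : Type*} [TopologicalSpace E] [TopologicalSpace.MetrizableSpace E]
    {F : G → E} (hF : StronglyMeasurable F) (h : ∀ g, ∀ᵐ k ∂m, F (g * k) = F k) :
    ∃ v, ∀ᵐ g ∂m, F g = v := by
  have hm : MeasurableSet {p : G × G | F (p.1 * p.2) = F p.2} :=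
    (hF.comp_measurable (by fun_prop)).measurableSet_eq_fun (hF.comp_measurable measurable_snd)
  have h1 := (Measure.ae_ae_comm (μ := m) (ν := m) (p := fun g k => F (g * k) = F k) hm).1
    (Eventually.of_forall h)
  obtain ⟨k, hk⟩ := h1.exists
  refine ⟨F k, ?_⟩
  simpa using (measurePreserving_mul_right m k⁻¹).quasiMeasurePreserving.ae hk

lemma sm_apply {Y : Type*} [MeasurableSpace Y] {T : Y → H →L[ℂ] H'}
    (hT : ∀ v, StronglyMeasurable fun y => T y v) {ξ : Y → H} (hξ : StronglyMeasurable ξ) :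
    StronglyMeasurable fun y => T y (ξ y) := by
  have hs : ∀ s : SimpleFunc Y H, StronglyMeasurable (fun y => T y (s y)) := fun s => by
    induction s using SimpleFunc.induction with
    | @const c A hA =>
      convert (hT c).indicator hA using 2 with y
      by_cases hy : y ∈ A <;> simp [hy]
    | @add f g _ hf hg =>
      convert hf.add hg using 2 with y
      simp
  exact stronglyMeasurable_of_tendsto atTop (f := fun n y => T y (hξ.approx n y)) (fun n => hs _)
    (tendsto_pi_nhds.2 fun y => ((T y).continuous.tendsto _).comp (hξ.tendsto_approx y))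

/-- **Invariant vectors of an induced representation.** -/
theorem mem_fix_ind {π : URep Γ H} {ξ : L2X H} :
    ξ ∈ (ind π).fix ↔ ∃ v ∈ π.fix, ξ = cst H v := by
  refine ⟨fun h => ?_, by rintro ⟨v, hv, rfl⟩; exact cst_mem_fix hv⟩
  have hξ := Lp.stronglyMeasurable ξ
  have hF : StronglyMeasurable fun k : G => π (cc k)⁻¹ (ξ (pr k)) := by
    refine sm_apply (T := fun k => π (cc k)⁻¹) (fun v => ?_) (hξ.comp_measurable measurable_pr)
    exact (StronglyMeasurable.of_discrete (f := fun γ : Γ => π γ⁻¹ v)).comp_measurable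
      measurable_cc
  obtain ⟨v, hv⟩ := ae_const_of_mul_invariant hF fun g => by
    filter_upwards [quasiMeasurePreserving_pr.ae (ind_coeFn' π g ξ)] with k hk
    rw [h g, smul_pr, coc_pr] at hk
    rw [hk, ← π.mul_apply, inv_mul_cancel_left]
  have h2 := ae_pr_iff.1 hv
  simp only [cc_mul_ι, cc_sec, one_mul, pr_mul_ι, pr_sec] at h2
  have h3 : ∀ᵐ x ∂μ, ξ x = v := by simpa using h2 1
  refine ⟨v, fun γ => ?_, Lp.ext (EventuallyEq.trans h3 (cst_coeFn v).symm)⟩
  obtain ⟨x, hx1, hx2⟩ := ((h2 γ⁻¹).and h3).exists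
  rwa [inv_inv, hx2] at hx1

lemma integral_mem_fix_aux [CompleteSpace H] (ξ : L2X H) (v : H) :
    ⟪cst H v, ξ⟫_ℂ = ⟪v, ∫ x, ξ x ∂μ⟫_ℂ := by
  rw [inner_cst_left, integral_inner ((Lp.memLp ξ).integrable (by norm_num))]

/-- the projection onto invariant vectors of an induced representation -/
theorem P_ind [CompleteSpace H] (π : URep Γ H) (ξ : L2X H) :
    (ind π).P ξ = cst H (π.P (∫ x, ξ x ∂μ)) := by
  refine Submodule.eq_starProjection_of_mem_of_inner_eq_zero (cst_mem_fix (π.P_mem _))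
    fun w hw => ?_
  obtain ⟨v, hv, rfl⟩ := mem_fix_ind.1 hw
  rw [inner_eq_zero_symm, inner_sub_right, inner_cst_cst, integral_mem_fix_aux,
    π.inner_P_of_mem hv, sub_self]

end Crest.Agent.N111
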