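import Crest.Agent.N111.Lat.X

/-!
# Row 111, lattice foundations IV: continuity, tightness and spreading of the cocycle.
-/

set_option autoImplicit false

namespace Crest.Agent.N111

open MeasureTheory Topology Filter Matrix
open scoped ENNReal NNReal symmDiff Pointwise

theorem tendsto_mul_symmDiff {A : Set G} (hA : MeasurableSet A) (hA' : m A ≠ ∞) :
    Tendsto (fun u : G => m (((fun g => u * g) ⁻¹' A) ∆ A)) (𝓝 1) (𝓝 0) := by
  let F : C(G, C(G, G)) := ContinuousMap.curry ⟨fun p : G × G => p.1 * p.2, continuous_mul⟩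
  have h := tendsto_measure_symmDiff_preimage_nhds_zero (μ := m) (ν := m) (l := 𝓝 (1 : G))
    (f := F) (g := F 1) (s := A) F.continuous.continuousAt
    (Eventually.of_forall fun u => measurePreserving_mul_left m u)
    (measurePreserving_mul_left m 1) hA.nullMeasurableSet hA'
  have e : (F 1) ⁻¹' A = A := by ext g; simp [F]
  rw [e] at h
  exact h

theorem tendsto_coc_ne_one : Tendsto (fun u : G => μ {x | coc u x ≠ 1}) (𝓝 1) (𝓝 0) := by
  refine tendsto_of_tendsto_of_tendsto_of_le_of_le tendsto_const_nhds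
    (tendsto_mul_symmDiff measurableSet_dom (by simp)) (fun _ => bot_le) fun u => μ_le ?_
  intro x hx
  exact Or.inr ⟨sec_mem x, fun h => hx (mem_dom_iff.1 h)⟩

/-- the cocycle is continuous in measure -/
theorem tendsto_coc_ne (g₀ : G) :
    Tendsto (fun g : G => μ {x | coc g x ≠ coc g₀ x}) (𝓝 g₀) (𝓝 0) := by
  have h : Tendsto (fun g : G => g * g₀⁻¹) (𝓝 g₀) (𝓝 1) :=
    (by fun_prop : Continuous fun g : G => g * g₀⁻¹).tendsto' _ _ (by simp)
  refine (tendsto_coc_ne_one.comp h).congr fun g => ?_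
  have e : {x | coc g x ≠ coc g₀ x} = (fun x => g₀ • x) ⁻¹' {x | coc (g * g₀⁻¹) x ≠ 1} := by
    ext x
    have : coc g x = coc (g * g₀⁻¹) (g₀ • x) * coc g₀ x := by rw [← coc_mul]; simp
    simp [this]
  rw [e, measure_preimage_smul]
  rfl

/-- the action on `X` is continuous in measure -/
theorem tendsto_smul_symmDiff {A : Set X} (hA : MeasurableSet A) :
    Tendsto (fun u : G => μ (((fun x => u • x) ⁻¹' A) ∆ A)) (𝓝 1) (𝓝 0) := by
  have hB : MeasurableSet (sec '' A) := measurableEmbedding_sec.measurableSet_image.2 hA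
  have h1 := tendsto_mul_symmDiff hB (by rw [← μ_apply]; exact measure_ne_top _ _)
  have h2 := tendsto_coc_ne_one.add h1
  rw [add_zero] at h2
  refine tendsto_of_tendsto_of_tendsto_of_le_of_le tendsto_const_nhds h2 (fun _ => bot_le)
    fun u => ?_
  have : ((fun x => u • x) ⁻¹' A) ∆ A ⊆ {x | coc u x ≠ 1} ∪
      {x | sec x ∈ ((fun g => u * g) ⁻¹' (sec '' A)) ∆ (sec '' A)} := by
    intro x hx
    by_cases hc : coc u x = 1
    · right
      have e : u * sec x = sec (u • x) := by rw [mul_sec, hc]; simp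
      simpa only [Set.mem_symmDiff, Set.mem_preimage, Set.mem_ofPred_eq, e,
        sec_injective.mem_set_image] using hx
    · exact Or.inl hc
  exact (measure_mono this).trans ((measure_union_le _ _).trans
    (add_le_add le_rfl (μ_le fun x hx => hx)))

theorem exists_box {ε : ℝ≥0∞} (hε : ε ≠ 0) : ∃ R : ℝ, μ {x | sec x ∉ box R} ≤ ε := by
  have hm : ∀ n : ℕ, MeasurableSet {x | sec x ∉ box n} := fun n =>
    (measurable_sec (isCompact_box n).measurableSet).compl
  have h := tendsto_measure_iInter_atTop (μ := μ) (s := fun n : ℕ => {x | sec x ∉ box n})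
    (fun n => (hm n).nullMeasurableSet)
    (fun a b hab x hx hx' => hx fun i j => (hx' i j).trans (by exact_mod_cast hab))
    ⟨0, measure_ne_top _ _⟩
  have e : (⋂ n : ℕ, {x | sec x ∉ box n}) = ∅ := by
    refine Set.eq_empty_of_forall_notMem fun x hx => ?_
    obtain ⟨R, -, hR⟩ := exists_subset_box (isCompact_singleton (x := sec x))
    refine Set.mem_iInter.1 hx ⌈R⌉₊ fun i j => (hR rfl i j).trans (Nat.le_ceil R)
  rw [e, measure_empty] at h
  obtain ⟨n, hn⟩ := (h.eventually (Iic_mem_nhds (pos_iff_ne_zero.2 hε))).exists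
  exact ⟨n, hn⟩

/-- **Tightness**: on a compact set of group elements the cocycle takes finitely many values,
up to small measure. -/
theorem coc_tight {L : Set G} (hL : IsCompact L) {ε : ℝ≥0∞} (hε : ε ≠ 0) :
    ∃ F : Finset Γ, ∀ g ∈ L, μ {x | coc g x ∉ F} ≤ ε := by
  obtain ⟨R, hR⟩ := exists_box (ENNReal.half_pos hε).ne'
  have hK : IsCompact ((box R)⁻¹ * L * box R) :=
    ((isCompact_box R).inv.mul hL).mul (isCompact_box R)
  refine ⟨(finite_of_isCompact hK).toFinset, fun g hg => ?_⟩
  have : {x | coc g x ∉ (finite_of_isCompact hK).toFinset} ⊆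
      {x | sec x ∉ box R} ∪ (fun x => g • x) ⁻¹' {x | sec x ∉ box R} := by
    intro x hx
    by_contra hc
    simp only [Set.mem_union, Set.mem_ofPred_eq, Set.mem_preimage, not_or, not_not] at hc
    refine hx ((Set.Finite.mem_toFinset _).2 ?_)
    rw [Set.mem_ofPred_eq, ι_coc]
    exact Set.mul_mem_mul (Set.mul_mem_mul (Set.inv_mem_inv.2 hc.2) hg) hc.1
  refine (measure_mono this).trans ((measure_union_le _ _).trans ?_)
  rw [measure_preimage_smul]
  exact (add_le_add hR hR).trans (ENNReal.add_halves ε).le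

/-- the vanishing locus of a matrix entry is Haar-null -/
theorem m_entry_eq_zero (i j : Fin 3) : m {g : G | g i j = 0} = 0 := by
  have h1 : ∀ k : Fin 3, i ≠ k → m {g : G | g i j = 0 ∧ g k j ≠ 0} = 0 := fun k hik => by
    let Z : ℝ → Set G := fun t => {g | g i j = t * g k j ∧ g k j ≠ 0}
    have hZ : ∀ t, MeasurableSet (Z t) := fun t =>
      (measurableSet_eq_fun (by fun_prop) (by fun_prop)).inter
        (measurableSet_eq_fun (by fun_prop) measurable_const).compl
    have hd : Pairwise (Function.onFun Disjoint Z) := fun s t hst =>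
      Set.disjoint_left.2 fun g hs ht => hst (mul_right_cancel₀ hs.2 (hs.1.symm.trans ht.1))
    have hc := Measure.countable_meas_pos_of_disjoint_iUnion (μ := m) hZ hd
    have hm : ∀ t, m (Z t) = m {g : G | g i j = 0 ∧ g k j ≠ 0} := fun t => by
      rw [← measure_preimage_mul m (tv hik t)]
      congr 1
      ext g
      simp [Z, tv_mul_apply, hik.symm]
    by_contra hne
    have : {t : ℝ | 0 < m (Z t)} = Set.univ :=
      Set.eq_univ_of_forall fun t => by rw [Set.mem_ofPred_eq, hm]; exact pos_iff_ne_zero.2 hne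
    rw [this] at hc
    exact Cardinal.not_countable_real hc
  have h2 : {g : G | g i j = 0} ⊆ ⋃ k ∈ {k : Fin 3 | i ≠ k}, {g : G | g i j = 0 ∧ g k j ≠ 0} := by
    intro g hg
    have hg' : g i j = 0 := hg
    by_contra hc
    simp only [Set.mem_iUnion, Set.mem_ofPred_eq, not_exists, not_and, not_not] at hc
    have hall : ∀ k, g k j = 0 := fun k => by
      by_cases hk : i = k
      · exact hk ▸ hg'
      · exact hc k hk hg'
    have := gr_pos g j
    simp [gr, hall] at this
  exact measure_mono_null h2 ((measure_biUnion_null_iff (Set.to_countable _)).2 h1)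

theorem tendsto_m_entry_small (R : ℝ) (i j : Fin 3) :
    Tendsto (fun δ : ℝ => m {g | g ∈ box R ∧ |g i j| ≤ δ}) (𝓝[>] 0) (𝓝 0) := by
  have hm : ∀ δ : ℝ, MeasurableSet {g | g ∈ box R ∧ |g i j| ≤ δ} := fun δ =>
    (isCompact_box R).measurableSet.inter 
      (measurableSet_le (f := fun g : G => |g i j|) (by fun_prop) measurable_const)
  have h := tendsto_measure_biInter_gt (μ := m) (a := (0 : ℝ))
    (s := fun δ : ℝ => {g | g ∈ box R ∧ |g i j| ≤ δ}) (fun δ _ => (hm δ).nullMeasurableSet)
    (fun a b _ hab g hg => ⟨hg.1, hg.2.trans hab⟩)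
    ⟨1, one_pos, ((measure_mono fun g hg => hg.1).trans_lt (isCompact_box R).measure_lt_top).ne⟩
  have e : m (⋂ δ > (0 : ℝ), {g | g ∈ box R ∧ |g i j| ≤ δ}) = 0 := by
    refine measure_mono_null (fun g hg => ?_) (m_entry_eq_zero i j)
    simp only [Set.mem_iInter] at hg
    exact abs_nonpos_iff.1 (le_of_forall_pos_le_add fun δ hδ => by simpa using (hg δ hδ).2)
  rwa [e] at h

/-- **Spreading** of the cocycle along a family `a t` of group elements such that conjugation
squeezes compact sets: `sup_γ μ {coc (a t) · = γ} → 0`. -/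
theorem coc_spread_of {α : Type*} {l : Filter α} {a : α → G}
    (h : ∀ R, Tendsto (fun t => m {g | g ∈ box R ∧ a t * g * (a t)⁻¹ ∈ box R}) l (𝓝 0))
    {ε : ℝ≥0∞} (hε : ε ≠ 0) : ∀ᶠ t in l, ∀ γ : Γ, μ {x | coc (a t) x = γ} ≤ ε := by
  have hε2 := (ENNReal.half_pos hε).ne'
  obtain ⟨R, hR⟩ := exists_box (ENNReal.half_pos hε2).ne'
  obtain ⟨R', -, hR'⟩ := exists_subset_box ((isCompact_box R).mul (isCompact_box R).inv)
  filter_upwards [(h R').eventually (Iic_mem_nhds (pos_iff_ne_zero.2 hε2))] with t ht γ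
  let E : Set X := {x | coc (a t) x = γ ∧ sec x ∈ box R ∧ sec (a t • x) ∈ box R}
  have hE : μ E ≤ ε / 2 := by
    rcases E.eq_empty_or_nonempty with h0 | ⟨y, hy⟩
    · simp [h0]
    refine le_trans ?_ ht
    rw [← measure_preimage_mul_right m (sec y)⁻¹]
    refine μ_le fun x hx => ⟨hR' (Set.mul_mem_mul hx.2.1 (Set.inv_mem_inv.2 hy.2.1)), hR' ?_⟩
    have e : a t * (sec x * (sec y)⁻¹) * (a t)⁻¹ = sec (a t • x) * (sec (a t • y))⁻¹ := by
      have e1 := mul_sec (a t) x
      have e2 := mul_sec (a t) y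
      rw [hx.1] at e1
      rw [hy.1] at e2
      calc _ = (a t * sec x) * (a t * sec y)⁻¹ := by group
        _ = _ := by rw [e1, e2]; group
    rw [e]
    exact Set.mul_mem_mul hx.2.2 (Set.inv_mem_inv.2 hy.2.2)
  have : {x | coc (a t) x = γ} ⊆
      ({x | sec x ∉ box R} ∪ (fun x => a t • x) ⁻¹' {x | sec x ∉ box R}) ∪ E := by
    intro x hx
    by_cases h1 : sec x ∈ box R
    · by_cases h2 : sec (a t • x) ∈ box R
      · exact Or.inr ⟨hx, h1, h2⟩
      · exact Or.inl (Or.inr h2)
    · exact Or.inl (Or.inl h1)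
  refine (measure_mono this).trans ((measure_union_le _ _).trans ?_)
  refine (add_le_add ((measure_union_le _ _).trans ?_) hE).trans (ENNReal.add_halves ε).le
  rw [measure_preimage_smul]
  exact (add_le_add hR hR).trans (ENNReal.add_halves _).le

/-- **Spreading along diagonal families** going to infinity. -/
theorem coc_spread {α : Type*} {l : Filter α} {a b : α → ℝ} {i j : Fin 3}
    (h : Tendsto (fun t => dgl (a t) (b t) i - dgl (a t) (b t) j) l atTop)
    {ε : ℝ≥0∞} (hε : ε ≠ 0) : ∀ᶠ t in l, ∀ γ : Γ, μ {x | coc (dg (a t) (b t)) x = γ} ≤ ε := by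
  refine coc_spread_of (fun R => ?_) hε
  have h1 : Tendsto (fun t => (|R| + 1) * Real.exp (-(dgl (a t) (b t) i - dgl (a t) (b t) j))) l
      (𝓝[>] 0) := by
    refine tendsto_nhdsWithin_iff.2 ⟨?_, Eventually.of_forall fun t => ?_⟩
    · simpa using (Real.tendsto_exp_neg_atTop_nhds_zero.comp h).const_mul (|R| + 1)
    · exact mul_pos (by positivity) (Real.exp_pos _)
  refine tendsto_of_tendsto_of_tendsto_of_le_of_le tendsto_const_nhds
    ((tendsto_m_entry_small R i j).comp h1) (fun _ => bot_le) fun t => measure_mono ?_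
  intro g hg
  refine ⟨hg.1, ?_⟩
  change |g i j| ≤ (|R| + 1) * Real.exp (-(dgl (a t) (b t) i - dgl (a t) (b t) j))
  have h2 := hg.2 i j
  rw [dg_inv, mul_dg_apply, dg_mul_apply, dgl_neg, mul_right_comm, ← Real.exp_add, abs_mul,
    abs_of_pos (Real.exp_pos _), ← sub_eq_add_neg] at h2
  rw [Real.exp_neg, ← div_eq_mul_inv, le_div_iff₀ (Real.exp_pos _), mul_comm]
  linarith [le_abs_self R]

end Crest.Agent.N111
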