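import Crest.Agent.N111.Lat.Ind

/-!
# Row 111: ergodicity of the induced action on the commutant algebra `Q`.

`mulf f` is multiplication by a bounded measurable scalar function.  For a set `M` of operators on
`H`, `Qalg M` is the commutant of `amp M` and of all multiplications by indicators.
-/

set_option autoImplicit false

namespace Crest.Agent.N111

open MeasureTheory Topology Filter
open scoped ENNReal InnerProductSpace

variable {H H' : Type*} [NormedAddCommGroup H] [InnerProductSpace ℂ H]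
  [NormedAddCommGroup H'] [InnerProductSpace ℂ H']

/-- multiplication by a scalar function -/
noncomputable def mulf (H : Type*) [NormedAddCommGroup H] [InnerProductSpace ℂ H] (f : X → ℂ) :
    L2X H →L[ℂ] L2X H := fld μ fun x => f x • (1 : H →L[ℂ] H)

/-- multiplication by an indicator -/
noncomputable def mul1 (H : Type*) [NormedAddCommGroup H] [InnerProductSpace ℂ H] (A : Set X) :
    L2X H →L[ℂ] L2X H := mulf H (A.indicator 1)

lemma isFld_indicator {A : Set X} (hA : MeasurableSet A) (z : H →L[ℂ] H') :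
    IsFld μ fun x => A.indicator (1 : X → ℂ) x • z :=
  (IsFld.const z).smul (aestronglyMeasurable_const.indicator hA) (B := 1)
    (Eventually.of_forall fun x => by by_cases hx : x ∈ A <;> simp [hx])

lemma mul1_coeFn {A : Set X} (hA : MeasurableSet A) (ξ : L2X H) :
    mul1 H A ξ =ᵐ[μ] A.indicator ξ := by
  filter_upwards [(isFld_indicator hA (1 : H →L[ℂ] H)).coeFn ξ] with x hx
  refine hx.trans ?_
  by_cases h : x ∈ A <;> simp [h]

lemma star_mul1 [CompleteSpace H] {A : Set X} (hA : MeasurableSet A) :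
    star (mul1 H A) = mul1 H A := by
  have e : (fun x => star (A.indicator (1 : X → ℂ) x • (1 : H →L[ℂ] H)))
      = fun x => A.indicator (1 : X → ℂ) x • (1 : H →L[ℂ] H) := by
    ext1 x
    by_cases h : x ∈ A <;> simp [h]
  rw [mul1, mulf, star_fld (isFld_indicator hA _) (e ▸ isFld_indicator hA _), e]

lemma inner_mul1_left {A : Set X} (hA : MeasurableSet A) (ξ η : L2X H) :
    ⟪mul1 H A ξ, η⟫_ℂ = ⟪ξ, mul1 H A η⟫_ℂ := by
  rw [L2.inner_def, L2.inner_def]
  refine integral_congr_ae ?_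
  filter_upwards [mul1_coeFn hA ξ, mul1_coeFn hA η] with x h1 h2
  rw [h1, h2]
  by_cases h : x ∈ A <;> simp [h]

lemma norm_mul1_le {A : Set X} (hA : MeasurableSet A) (ξ : L2X H) : ‖mul1 H A ξ‖ ≤ ‖ξ‖ :=
  Lp.norm_le_norm_of_ae_le ((mul1_coeFn hA ξ).mono fun x hx => by
    rw [hx]; exact norm_indicator_le_norm_self _ _)

lemma mul1_fld {A : Set X} (hA : MeasurableSet A) {T : X → H →L[ℂ] H'} (hT : IsFld μ T) :
    mul1 H' A ∘L fld μ T = fld μ T ∘L mul1 H A := by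
  ext1 ξ
  refine Lp.ext ?_
  filter_upwards [mul1_coeFn hA (fld μ T ξ), hT.coeFn ξ, hT.coeFn (mul1 H A ξ),
    mul1_coeFn hA ξ] with x h1 h2 h3 h4
  simp only [ContinuousLinearMap.comp_apply]
  rw [h1, h3, h4]
  by_cases h : x ∈ A <;> simp [h, h2]

lemma mul1_cst {A : Set X} (hA : MeasurableSet A) (v : H) :
    mul1 H A (cst H v) = indicatorConstLp 2 hA (measure_ne_top μ A) v := by
  refine Lp.ext ?_
  filter_upwards [mul1_coeFn hA (cst H v), cst_coeFn v,
    indicatorConstLp_coeFn (p := 2) (hs := hA) (hμs := measure_ne_top μ A) (c := v)]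
    with x h1 h2 h3
  rw [h1, h3]
  by_cases h : x ∈ A <;> simp [h, h2]

lemma ind_mul1 (π : URep Γ H) (g : G) {A : Set X} (hA : MeasurableSet A) :
    ind π g * mul1 H A = mul1 H ((fun x => g⁻¹ • x) ⁻¹' A) * ind π g := by
  ext1 ξ
  refine Lp.ext ?_
  filter_upwards [ind_coeFn π g (mul1 H A ξ), ae_smul g⁻¹ (mul1_coeFn hA ξ),
    mul1_coeFn ((measurePreserving_smul g⁻¹).measurable hA) (ind π g ξ), ind_coeFn π g ξ]
    with x h1 h2 h3 h4
  simp only [mul_apply_eq_comp]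
  rw [h1, h2, h3]
  by_cases h : g⁻¹ • x ∈ A <;> simp [h, h4]

/-- the vectors `1_A ⊗ v` are total -/
theorem L2X_induction {p : L2X H → Prop} (hc : IsClosed {ξ | p ξ})
    (hadd : ∀ ξ η, p ξ → p η → p (ξ + η))
    (h : ∀ (A : Set X), MeasurableSet A → ∀ v, p (mul1 H A (cst H v))) (ξ : L2X H) : p ξ := by
  refine Lp.induction (by norm_num) p (fun v A hA _ => ?_) (fun f g hf hg _ => hadd _ _) hc ξ
  rw [Lp.simpleFunc.coe_indicatorConst, ← mul1_cst hA]
  exact h A hA v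

theorem L2X_ext {E : Type*} [NormedAddCommGroup E] [NormedSpace ℂ E] {S T : L2X H →L[ℂ] E}
    (h : ∀ (A : Set X), MeasurableSet A → ∀ v, S (mul1 H A (cst H v)) = T (mul1 H A (cst H v))) :
    S = T := by
  ext1 ξ
  exact L2X_induction (p := fun ξ => S ξ = T ξ) (isClosed_eq S.continuous T.continuous)
    (fun ξ η h1 h2 => by rw [map_add, map_add, h1, h2]) h ξ

theorem L2X_ext_inner {ξ η : L2X H}
    (h : ∀ (A : Set X), MeasurableSet A → ∀ v,
      ⟪mul1 H A (cst H v), ξ⟫_ℂ = ⟪mul1 H A (cst H v), η⟫_ℂ) : ξ = η :=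
  ext_inner_left ℂ fun ζ => L2X_induction (p := fun ζ => ⟪ζ, ξ⟫_ℂ = ⟪ζ, η⟫_ℂ)
    (isClosed_eq (by fun_prop) (by fun_prop))
    (fun a b h1 h2 => by rw [inner_add_left, inner_add_left, h1, h2]) h ζ

theorem mul1_fld_countable {K : Type*} [Countable K] [MeasurableSpace K]
    [DiscreteMeasurableSpace K] {c : X → K} (hc : Measurable c) {Ψ : K → H →L[ℂ] H'} {D : ℝ}
    (hΨ : ∀ k, ‖Ψ k‖ ≤ D) (k : K) (ξ : L2X H) :
    mul1 H' (c ⁻¹' {k}) (fld μ (fun x => Ψ (c x)) ξ) = mul1 H' (c ⁻¹' {k}) (amp (Ψ k) ξ) := by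
  have hm : MeasurableSet (c ⁻¹' {k}) := hc (MeasurableSet.of_discrete)
  refine Lp.ext ?_
  filter_upwards [mul1_coeFn hm (fld μ (fun x => Ψ (c x)) ξ),
    mul1_coeFn hm (amp (Ψ k) ξ), (IsFld.of_countable (ν := μ) hc Ψ hΨ).coeFn ξ,
    amp_coeFn (Ψ k) ξ] with x h1 h2 h3 h4
  rw [h1, h2]
  by_cases hx : x ∈ c ⁻¹' {k}
  · rw [Set.indicator_of_mem hx, Set.indicator_of_mem hx, h3, h4, show c x = k from hx]
  · simp [hx]

/-- an operator commuting with indicators and with `amp (Φ k)` commutes with the field `Φ ∘ c` -/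
theorem comm_fld_countable {K : Type*} [Countable K] [MeasurableSpace K]
    [DiscreteMeasurableSpace K] {c : X → K} (hc : Measurable c) {T : L2X H →L[ℂ] L2X H'}
    (hT : ∀ A, MeasurableSet A → T ∘L mul1 H A = mul1 H' A ∘L T)
    {Φ : K → H →L[ℂ] H} {Φ' : K → H' →L[ℂ] H'} {C C' : ℝ} (hΦ : ∀ k, ‖Φ k‖ ≤ C)
    (hΦ' : ∀ k, ‖Φ' k‖ ≤ C') (h : ∀ k, T ∘L amp (Φ k) = amp (Φ' k) ∘L T) :
    T ∘L fld μ (fun x => Φ (c x)) = fld μ (fun x => Φ' (c x)) ∘L T := by
  have hm : ∀ k, MeasurableSet (c ⁻¹' {k}) := fun k => hc (MeasurableSet.of_discrete)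
  ext1 ξ
  refine Lp.ext ?_
  have h1 : ∀ k, mul1 H' (c ⁻¹' {k}) (T (fld μ (fun x => Φ (c x)) ξ))
      = mul1 H' (c ⁻¹' {k}) (fld μ (fun x => Φ' (c x)) (T ξ)) := fun k => by
    have e1 := fun η => congrArg (fun S : L2X H →L[ℂ] L2X H' => S η) (hT _ (hm k))
    have e2 := congrArg (fun S : L2X H →L[ℂ] L2X H' => S ξ) (h k)
    simp only [ContinuousLinearMap.comp_apply] at e1 e2
    rw [← e1, mul1_fld_countable hc hΦ, e1, e2, mul1_fld_countable hc hΦ']
  have h2 : ∀ k, ∀ᵐ x ∂μ, c x = k →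
      T (fld μ (fun x => Φ (c x)) ξ) x = fld μ (fun x => Φ' (c x)) (T ξ) x := fun k => by
    filter_upwards [mul1_coeFn (hm k) (T (fld μ (fun x => Φ (c x)) ξ)),
      mul1_coeFn (hm k) (fld μ (fun x => Φ' (c x)) (T ξ))] with x a b hx
    have hx' : x ∈ c ⁻¹' {k} := hx
    rw [h1 k, b, Set.indicator_of_mem hx', Set.indicator_of_mem hx'] at a
    exact a.symm
  filter_upwards [ae_all_iff.2 h2] with x hx using hx _ rfl

variable [CompleteSpace H]

/-- commuting with `amp S` is the same as commuting with `amp S''` -/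
theorem comm_amp_of_bicommutant {S : Set (H →L[ℂ] H)} {T : L2X H →L[ℂ] L2X H}
    (hT : ∀ z ∈ S, T * amp z = amp z * T) {z : H →L[ℂ] H}
    (hz : z ∈ Set.centralizer (Set.centralizer S)) : T * amp z = amp z * T := by
  have hten : ∀ A, MeasurableSet A → ∀ (y : H →L[ℂ] H) (v : H),
      amp y (mul1 H A (cst H v)) = mul1 H A (cst H (y v)) := fun A hA y v => by
    have := congrArg (fun S : L2X H →L[ℂ] L2X H => S (cst H v)) (mul1_fld hA (IsFld.const y))
    simp only [ContinuousLinearMap.comp_apply] at this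
    rw [← amp_cst]
    exact this.symm
  refine L2X_ext fun B hB v => L2X_ext_inner fun A hA w => ?_
  let TAB : H →L[ℂ] H :=
    ContinuousLinearMap.adjoint (mul1 H A ∘L cst H) ∘L T ∘L (mul1 H B ∘L cst H)
  have hTAB : ∀ v w, ⟪w, TAB v⟫_ℂ = ⟪mul1 H A (cst H w), T (mul1 H B (cst H v))⟫_ℂ := fun v w => by
    simp only [TAB, ContinuousLinearMap.comp_apply, ContinuousLinearMap.adjoint_inner_right]
  have key : ∀ (y : H →L[ℂ] H) (v w : H), ⟪w, (TAB * y) v⟫_ℂ = ⟪w, (y * TAB) v⟫_ℂ ↔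
      ⟪mul1 H A (cst H w), (T * amp y) (mul1 H B (cst H v))⟫_ℂ
        = ⟪mul1 H A (cst H w), (amp y * T) (mul1 H B (cst H v))⟫_ℂ := fun y v w => by
    simp only [mul_apply_eq_comp]
    rw [hTAB, hten B hB, ← ContinuousLinearMap.adjoint_inner_left y, hTAB,
      ← ContinuousLinearMap.adjoint_inner_left (amp y), ← ContinuousLinearMap.star_eq_adjoint,
      ← ContinuousLinearMap.star_eq_adjoint, star_amp, hten A hA]
  have h1 : TAB ∈ Set.centralizer S := fun y hy => by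
    ext v
    exact ext_inner_left ℂ fun w => ((key y v w).2 (by rw [hT y hy])).symm
  exact (key z v w).1 (by rw [hz TAB h1])

/-- the commutant of `amp S` and of the multiplication operators -/
def Qalg (S : Set (H →L[ℂ] H)) : Set (L2X H →L[ℂ] L2X H) :=
  {T | (∀ z ∈ S, T * amp z = amp z * T) ∧ ∀ A, MeasurableSet A → T * mul1 H A = mul1 H A * T}

omit [CompleteSpace H] in
theorem Qalg_eq_centralizer (S : Set (H →L[ℂ] H)) :
    Qalg S = Set.centralizer (amp '' S ∪ mul1 H '' {A | MeasurableSet A}) := by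
  ext T
  constructor
  · rintro ⟨h1, h2⟩ _ (⟨z, hz, rfl⟩ | ⟨A, hA, rfl⟩)
    · exact (h1 z hz).symm
    · exact (h2 A hA).symm
  · exact fun h => ⟨fun z hz => (h _ (Or.inl ⟨z, hz, rfl⟩)).symm,
      fun A hA => (h _ (Or.inr ⟨A, hA, rfl⟩)).symm⟩

omit [CompleteSpace H] in
/-- `cst Ω` separates `Q` when `Ω` is cyclic for `S` -/
theorem Qalg_ext {S : Set (H →L[ℂ] H)} {Ω : H}
    (hΩ : Dense (Submodule.span ℂ {v | ∃ z ∈ S, v = z Ω} : Set H)) {T T' : L2X H →L[ℂ] L2X H}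
    (hT : T ∈ Qalg S) (hT' : T' ∈ Qalg S) (h : T (cst H Ω) = T' (cst H Ω)) : T = T' := by
  have h1 : T ∘L cst H = T' ∘L cst H := by
    refine ContinuousLinearMap.ext_on hΩ ?_
    rintro _ ⟨z, hz, rfl⟩
    have e1 := congrArg (fun S : L2X H →L[ℂ] L2X H => S (cst H Ω)) (hT.1 z hz)
    have e2 := congrArg (fun S : L2X H →L[ℂ] L2X H => S (cst H Ω)) (hT'.1 z hz)
    simp only [mul_apply_eq_comp, amp_cst] at e1 e2
    simp only [ContinuousLinearMap.comp_apply, e1, e2, h]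
  refine L2X_ext fun A hA v => ?_
  have e1 := congrArg (fun S : L2X H →L[ℂ] L2X H => S (cst H v)) (hT.2 A hA)
  have e2 := congrArg (fun S : L2X H →L[ℂ] L2X H => S (cst H v)) (hT'.2 A hA)
  have e3 := congrArg (fun S : H →L[ℂ] L2X H => S v) h1
  simp only [mul_apply_eq_comp, ContinuousLinearMap.comp_apply] at e1 e2 e3
  rw [e1, e2, e3]

omit [CompleteSpace H] in
theorem Qalg_conj {S : Set (H →L[ℂ] H)} {ρ : URep Γ H} (hρ : ∀ z ∈ S, ∀ γ, ρ γ * z = z * ρ γ)
    {T : L2X H →L[ℂ] L2X H} (hT : T ∈ Qalg S) (g : G) : ind ρ g * T * ind ρ g⁻¹ ∈ Qalg S := by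
  constructor
  · intro z hz
    have e : ∀ g, ind ρ g * amp z = amp z * ind ρ g := fun g => ind_amp (hρ z hz) g
    rw [mul_assoc, e, ← mul_assoc, mul_assoc _ T, hT.1 z hz, ← mul_assoc, e]
    simp only [mul_assoc]
  · intro A hA
    have hA' := (measurePreserving_smul g⁻¹⁻¹).measurable hA
    rw [mul_assoc, ind_mul1 ρ g⁻¹ hA, ← mul_assoc, mul_assoc _ T, hT.2 _ hA', ← mul_assoc,
      ind_mul1 ρ g hA']
    simp only [mul_assoc, Set.preimage_preimage, inv_inv, smul_inv_smul, Set.preimage_id']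

/-- pointwise product of two commuting representations -/
def URep.mulRep {K : Type*} [Group K] {E : Type*} [NormedAddCommGroup E] [InnerProductSpace ℂ E]
    (L ρ : URep K E) (h : ∀ a b, L a * ρ b = ρ b * L a) : URep K E :=
  URep.mk' (fun k => L k * ρ k) (by simp)
    (fun a b => by
      simp only [map_mul, mul_assoc]
      rw [← mul_assoc (L b), h b a, mul_assoc])
    (fun k v => by rw [mul_apply_eq_comp, L.norm_map, ρ.norm_map])

@[simp] lemma URep.mulRep_apply {K : Type*} [Group K] {E : Type*} [NormedAddCommGroup E]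
    [InnerProductSpace ℂ E] (L ρ : URep K E) (h) (k : K) : L.mulRep ρ h k = L k * ρ k := rfl

/-- data making `T ↦ T (cst Ω)` an equivariant embedding of `Q` into a unitary representation:
`S` is the left algebra, `ρ` the right action, `L` the left action with `L γ ρ γ Ω = Ω`. -/
structure ErgData (S : Set (H →L[ℂ] H)) (ρ L : URep Γ H) (Ω : H) : Prop where
  comm : ∀ z ∈ S, ∀ γ, ρ γ * z = z * ρ γ
  L_mem : ∀ γ, L γ ∈ Set.centralizer (Set.centralizer S)
  L_Ω : ∀ γ, L γ (ρ γ Ω) = Ω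
  cyc : Dense (Submodule.span ℂ {v | ∃ z ∈ S, v = z Ω} : Set H)
  erg : ∀ v, (∀ γ, L γ (ρ γ v) = v) → ∃ c : ℂ, v = c • Ω

namespace ErgData

variable {S : Set (H →L[ℂ] H)} {ρ L : URep Γ H} {Ω : H} (h : ErgData S ρ L Ω)
include h

omit [CompleteSpace H] in
lemma L_comm (a b : Γ) : L a * ρ b = ρ b * L a :=
  (h.L_mem a (ρ b) fun z hz => (h.comm z hz b).symm).symm

/-- the conjugation representation of `Γ` -/
def ad : URep Γ H := L.mulRep ρ h.L_comm

omit [CompleteSpace H] in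
lemma ad_apply (γ : Γ) (v : H) : h.ad γ v = L γ (ρ γ v) := rfl

theorem conj_cst {T : L2X H →L[ℂ] L2X H} (hT : T ∈ Qalg S) (g : G) :
    (ind ρ g * T * ind ρ g⁻¹) (cst H Ω) = ind h.ad g (T (cst H Ω)) := by
  have hL := isFld_coc L (fun _ => L.norm_le _) g
  have e1 : ind ρ g⁻¹ (cst H Ω) = fld μ (fun x => L (coc g x)) (cst H Ω) := by
    refine Lp.ext ?_
    filter_upwards [ind_cst_coeFn ρ g⁻¹ Ω, hL.coeFn (cst H Ω), cst_coeFn Ω] with x h1 h2 h3
    rw [h1, h2, h3, inv_inv]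
    conv_lhs => rw [← h.L_Ω (coc g x), ← mul_apply_eq_comp, ← h.L_comm, mul_apply_eq_comp,
      ρ.inv_apply_apply]
  have e2 := comm_fld_countable (c := coc g) (measurable_coc measurable_const measurable_id) hT.2
    (fun _ => L.norm_le _) (fun _ => L.norm_le _)
    fun k => comm_amp_of_bicommutant hT.1 (h.L_mem k)
  have e3 := congrArg (fun S : L2X H →L[ℂ] L2X H => S (cst H Ω)) e2
  simp only [ContinuousLinearMap.comp_apply] at e3
  simp only [mul_apply_eq_comp]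
  rw [e1, e3]
  refine Lp.ext ?_
  filter_upwards [ind_coeFn ρ g (fld μ (fun x => L (coc g x)) (T (cst H Ω))),
    ae_smul g⁻¹ (hL.coeFn (T (cst H Ω))), ind_coeFn h.ad g (T (cst H Ω))] with x h1 h2 h3
  rw [h1, h2, h3, ad_apply, ← mul_apply_eq_comp, ← h.L_comm, mul_apply_eq_comp]

omit [CompleteSpace H] in
theorem mem_fix_ad {ξ : L2X H} (hξ : ξ ∈ (ind h.ad).fix) : ∃ c : ℂ, ξ = c • cst H Ω := by
  obtain ⟨v, hv, rfl⟩ := mem_fix_ind.1 hξ
  obtain ⟨c, rfl⟩ := h.erg v hv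
  exact ⟨c, map_smul _ _ _⟩

/-- **Ergodicity**, abstract form. -/
theorem scalar_of {u : G} (hu : ∀ ξ, ind h.ad u ξ = ξ → ξ ∈ (ind h.ad).fix)
    {T : L2X H →L[ℂ] L2X H} (hT : T ∈ Qalg S) (hTu : ind ρ u * T = T * ind ρ u) :
    ∃ c : ℂ, T = c • 1 := by
  have e := h.conj_cst hT u
  rw [hTu, mul_assoc, URep.mul_inv_self, mul_one] at e
  obtain ⟨c, hc⟩ := h.mem_fix_ad (hu _ e.symm)
  exact ⟨c, Qalg_ext h.cyc hT ⟨fun _ _ => by simp, fun _ _ => by simp⟩ hc⟩

/-- **Ergodicity**: an element of `Q` commuting with a conjugate of a transvection is scalar. -/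
theorem scalar_of_tv {i j : Fin 3} (hij : i ≠ j) {b : ℝ} (hb : b ≠ 0) (g : G)
    {T : L2X H →L[ℂ] L2X H} (hT : T ∈ Qalg S)
    (hTu : ind ρ (g * tv hij b * g⁻¹) * T = T * ind ρ (g * tv hij b * g⁻¹)) :
    ∃ c : ℂ, T = c • 1 :=
  h.scalar_of (fun _ => (ind_cont _).fix_of_conj_tv hij hb g) hT hTu

theorem scalar_of_dg {a b : ℝ} (hab : a ≠ 0 ∨ b ≠ 0) (g : G)
    {T : L2X H →L[ℂ] L2X H} (hT : T ∈ Qalg S)
    (hTu : ind ρ (g * dg a b * g⁻¹) * T = T * ind ρ (g * dg a b * g⁻¹)) :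
    ∃ c : ℂ, T = c • 1 :=
  h.scalar_of (fun _ => (ind_cont _).fix_of_conj_dg hab g) hT hTu

/-- the projection onto the invariant vectors of the conjugation representation (`‖Ω‖ = 1`) -/
theorem P_ad (hΩ : ‖Ω‖ = 1) (ξ : L2X H) : (ind h.ad).P ξ = ⟪cst H Ω, ξ⟫_ℂ • cst H Ω := by
  obtain ⟨c, hc⟩ := h.mem_fix_ad ((ind h.ad).P_mem ξ)
  have e := (ind h.ad).inner_P_of_mem (cst_mem_fix (π := h.ad) h.L_Ω) ξ
  rw [hc, inner_smul_right, inner_self_eq_norm_sq_to_K, norm_cst, hΩ] at e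
  rw [hc, ← e]; simp

/-- **Mixing on `Q`**: `σ_{a t}(T) → τ(T)` weakly along diagonal families. -/
theorem mixing_Q (hΩ : ‖Ω‖ = 1) {α : Type*} {l : Filter α} {a : α → G}
    (ha : WTends l (fun t => ind h.ad (a t)) (ind h.ad).P) {T : L2X H →L[ℂ] L2X H}
    (hT : T ∈ Qalg S) :
    WTends l (fun t => ind ρ (a t) * T * ind ρ (a t)⁻¹) (⟪cst H Ω, T (cst H Ω)⟫_ℂ • 1) := by
  intro w v
  refine tendsto_iff_ultrafilter _ _ _ |>.2 fun U hU => ?_
  have hb : ∀ᶠ t in U, ‖ind ρ (a t) * T * ind ρ (a t)⁻¹‖ ≤ ‖T‖ := Eventually.of_forall fun t =>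
    (norm_mul_le _ _).trans ((mul_le_of_le_one_right (norm_nonneg _) (URep.norm_le _ _)).trans
      ((norm_mul_le _ _).trans (mul_le_of_le_one_left (norm_nonneg _) (URep.norm_le _ _))))
  obtain ⟨A, -, hA⟩ := exists_wtends U hb
  have hcomm : ∀ B B' : L2X H →L[ℂ] L2X H, star B = B' →
      (∀ t, (ind ρ (a t) * T * ind ρ (a t)⁻¹) * B = B * (ind ρ (a t) * T * ind ρ (a t)⁻¹)) →
      A * B = B * A := fun B B' hB h1 => by
    ext1 x
    refine ext_inner_left ℂ fun y => tendsto_nhds_unique (hA y (B x)) ?_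
    have h2 := hA (ContinuousLinearMap.adjoint B y) x
    simp only [ContinuousLinearMap.adjoint_inner_left] at h2
    refine h2.congr fun t => ?_
    rw [← mul_apply_eq_comp B, ← h1, mul_apply_eq_comp]
  have hAQ : A ∈ Qalg S := ⟨fun z hz => hcomm _ _ rfl fun t => (Qalg_conj h.comm hT _).1 z hz,
    fun B hB => hcomm _ _ rfl fun t => (Qalg_conj h.comm hT _).2 B hB⟩
  have e : A = ⟪cst H Ω, T (cst H Ω)⟫_ℂ • 1 := by
    refine Qalg_ext h.cyc hAQ ⟨fun _ _ => by simp, fun _ _ => by simp⟩ ?_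
    refine ext_inner_left ℂ fun y => tendsto_nhds_unique (hA y _) ?_
    simp only [h.conj_cst hT]
    have := (ha y (T (cst H Ω))).mono_left hU
    rwa [h.P_ad hΩ] at this
  exact e ▸ hA w v

end ErgData

end Crest.Agent.N111
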