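import Crest.Agent.N111.Lat.Cont

/-!
# Row 111: quantitative spreading of the cocycle (`κ_s ≤ C e^{-6 s}` on a compact part).
-/

set_option autoImplicit false

namespace Crest.Agent.N111

open MeasureTheory Topology Filter Matrix
open scoped ENNReal NNReal Pointwise

lemma sum_three {i j k : Fin 3} (hij : i ≠ j) (hik : i ≠ k) (hjk : j ≠ k) (f : Fin 3 → ℝ) :
    f 0 + f 1 + f 2 = f i + f j + f k := by
  fin_cases i <;> fin_cases j <;> fin_cases k <;> simp at hij hik hjk ⊢ <;> ring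

/-- packing of disjoint right translates -/
theorem m_le_of_packing {κ : Type*} (s : Finset κ) {S B : Set G} (hS : MeasurableSet S)
    (u : κ → G) (hd : ∀ a ∈ s, ∀ b ∈ s, ∀ g, g * u a ∈ S → g * u b ∈ S → a = b)
    (hB : ∀ a ∈ s, ∀ g, g * u a ∈ S → g ∈ B) : s.card * m S ≤ m B := by
  let T : κ → Set G := fun a => (fun h => h * u a) ⁻¹' S
  have hT : ∀ a, MeasurableSet (T a) := fun a => hS.preimage (by fun_prop)
  have hsub : (⋃ a ∈ s, T a) ⊆ B := by
    intro g hg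
    simp only [Set.mem_iUnion] at hg
    obtain ⟨a, ha, hg⟩ := hg
    exact hB a ha g hg
  refine le_trans (le_of_eq ?_) (measure_mono hsub)
  rw [measure_biUnion_finset (f := T) (fun a ha b hb hab => Set.disjoint_left.2 fun g h1 h2 =>
    hab (hd a ha b hb g h1 h2)) fun a _ => hT a]
  simp [T, measure_preimage_mul_right]

lemma nat_eq_of_close {p q : ℕ} {t c ε : ℝ} (hc : 0 < ε * |c|) (h1 : |t + -(3 * p * ε) * c| ≤ ε * |c|)
    (h2 : |t + -(3 * q * ε) * c| ≤ ε * |c|) : p = q := by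
  have h3 : |(3 * q * ε - 3 * p * ε) * c| ≤ 2 * (ε * |c|) := by
    have : (3 * q * ε - 3 * p * ε) * c = (t + -(3 * p * ε) * c) - (t + -(3 * q * ε) * c) := by ring
    rw [this]
    exact (abs_sub _ _).trans (by linarith)
  have hε : 0 < ε := by
    by_contra hh
    exact absurd hc (not_lt.2 (mul_nonpos_of_nonpos_of_nonneg (not_lt.1 hh) (abs_nonneg c)))
  have h4 : 3 * |(q : ℝ) - p| * (ε * |c|) ≤ 2 * (ε * |c|) := by
    have : (3 * q * ε - 3 * p * ε) * c = 3 * ((q : ℝ) - p) * (ε * c) := by ring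
    rwa [this, abs_mul, abs_mul, abs_mul, abs_of_pos hε, abs_of_pos (by norm_num : (0 : ℝ) < 3)]
      at h3
  have h5 : |(q : ℝ) - p| < 1 := by
    have := le_of_mul_le_mul_right h4 hc
    linarith
  have h6 : |(q : ℤ) - p| < 1 := by exact_mod_cast h5
  have := Int.abs_lt_one_iff.1 h6
  omega

theorem m_row_small (R : ℝ) : ∃ C : ℝ≥0∞, C ≠ ∞ ∧ ∀ {i j k : Fin 3}, i ≠ j → i ≠ k → j ≠ k →
    ∀ δ : ℝ, 0 < δ → m {g | g ∈ box R ∧ |g i j| ≤ δ ∧ |g i k| ≤ δ} ≤ C * ENNReal.ofReal (δ ^ 2) := by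
  obtain ⟨R', hR'0, hR'⟩ := exists_subset_box (isCompact_box R).inv
  set A := R' + 1 with hA
  have hA0 : 0 < A := by positivity
  refine ⟨ENNReal.ofReal ((4 * A) ^ 2) * m (box (7 * |R|)),
    ENNReal.mul_ne_top ENNReal.ofReal_ne_top (isCompact_box _).measure_lt_top.ne,
    fun {i j k} hij hik hjk δ hδ => ?_⟩
  rw [mul_right_comm, ← ENNReal.ofReal_mul (by positivity), ← mul_pow]
  set ε := 4 * A * δ with hε
  have hε0 : 0 < ε := by positivity
  rcases le_or_gt 1 ε with h1 | h1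
  · refine le_trans (measure_mono (t := box (7 * |R|)) fun g hg a b => (hg.1 a b).trans ?_)
      (le_mul_of_one_le_left' ?_)
    · linarith [le_abs_self R, abs_nonneg R]
    · rw [← ENNReal.ofReal_one]; exact ENNReal.ofReal_le_ofReal (one_le_pow₀ h1)
  let S : Set G := {g | g ∈ box R ∧ |g i j| ≤ ε * |g i i| ∧ |g i k| ≤ ε * |g i i| ∧ g i i ≠ 0}
  have hS : MeasurableSet S := (isCompact_box R).measurableSet.inter
    ((measurableSet_le (f := fun g : G => |g i j|) (by fun_prop) (by fun_prop)).inter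
      ((measurableSet_le (f := fun g : G => |g i k|) (by fun_prop) (by fun_prop)).inter
        (measurableSet_eq_fun (f := fun g : G => g i i) (by fun_prop) measurable_const).compl))
  have hsub : {g | g ∈ box R ∧ |g i j| ≤ δ ∧ |g i k| ≤ δ} ⊆ S := by
    rintro g ⟨hg, h2, h3⟩
    have e : (g * g⁻¹) i i = 1 := by rw [mul_inv_cancel]; exact Matrix.one_apply_eq i
    rw [mul_entry, sum_three hij hik hjk (fun l => g i l * g⁻¹ l i)] at e
    have hb : ∀ l, |g⁻¹ l i| ≤ A := fun l =>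
      (hR' (Set.inv_mem_inv.2 hg) l i).trans (by linarith)
    have e2 : 1 ≤ |g i i| * A + δ * A + δ * A := by
      refine e.ge.trans ((le_abs_self _).trans ((abs_add_three _ _ _).trans ?_))
      simp only [abs_mul]
      gcongr <;> exact hb _
    have e3 : δ ≤ ε * |g i i| := by nlinarith
    refine ⟨hg, h2.trans e3, h3.trans e3, fun h0 => ?_⟩
    rw [h0] at e3; simp at e3; linarith
  let N := ⌈1 / ε⌉₊
  have hp := m_le_of_packing (Finset.range N ×ˢ Finset.range N) (B := box (7 * |R|)) hS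
    (fun p => tv hij (-(3 * p.1 * ε)) * tv hik (-(3 * p.2 * ε))) ?_ ?_
  · have h2 : 1 ≤ ENNReal.ofReal (ε ^ 2) * (Finset.range N ×ˢ Finset.range N).card := by
      rw [← ENNReal.ofReal_natCast, ← ENNReal.ofReal_mul (by positivity), ← ENNReal.ofReal_one]
      refine ENNReal.ofReal_le_ofReal ?_
      have : 1 / ε ≤ N := Nat.le_ceil _
      rw [div_le_iff₀ hε0] at this
      simp only [Finset.card_product, Finset.card_range, Nat.cast_mul]
      nlinarith
    calc _ ≤ 1 * m S := by rw [one_mul]; exact measure_mono hsub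
      _ ≤ ENNReal.ofReal (ε ^ 2) * (Finset.range N ×ˢ Finset.range N).card * m S := by gcongr
      _ ≤ _ := by rw [mul_assoc]; gcongr
  · intro a _ b _ g ha hb
    simp only [S, Set.mem_ofPred_eq, ← mul_assoc, mul_tv_apply, hij, hik, hjk, hjk.symm, if_true,
      if_false, add_zero] at ha hb
    have hc : 0 < ε * |g i i| := mul_pos hε0 (abs_pos.2 ha.2.2.2)
    exact Prod.ext (nat_eq_of_close hc ha.2.1 hb.2.1) (nat_eq_of_close hc ha.2.2.1 hb.2.2.1)
  · intro a ha g hg p q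
    have hb := hg.1
    simp only [Finset.mem_product, Finset.mem_range] at ha
    have hk : ∀ n : ℕ, n < N → |3 * n * ε| ≤ 3 := fun n hn => by
      have : (n : ℝ) < 1 / ε := Nat.lt_ceil.1 hn
      rw [lt_div_iff₀ hε0] at this
      rw [abs_of_nonneg (by positivity)]; linarith
    have b0 := hb p i
    have bq := hb p q
    simp only [← mul_assoc, mul_tv_apply, hij, hik, if_false, add_zero] at b0 bq
    have hR := le_abs_self R
    have hR0 := abs_nonneg R
    have t : ∀ n : ℕ, n < N → |-(3 * n * ε) * g p i| ≤ 3 * |R| := fun n hn => by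
      rw [abs_mul, abs_neg]
      exact mul_le_mul (hk n hn) (b0.trans hR) (abs_nonneg _) (by norm_num)
    have t1 := abs_le.1 (t _ ha.1)
    have t2 := abs_le.1 (t _ ha.2)
    rw [abs_le] at bq ⊢
    split_ifs at bq <;> constructor <;> linarith

/-- two points with the same cocycle value differ by an element staying bounded under conjugation -/
theorem μ_coc_eq_le (R : ℝ) : ∃ R', ∀ (a : G) (γ : Γ),
    μ {x | coc a x = γ ∧ sec x ∈ box R ∧ sec (a • x) ∈ box R}
      ≤ m {g | g ∈ box R' ∧ a * g * a⁻¹ ∈ box R'} := by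
  obtain ⟨R', -, hR'⟩ := exists_subset_box ((isCompact_box R).mul (isCompact_box R).inv)
  refine ⟨R', fun a γ => ?_⟩
  rcases {x | coc a x = γ ∧ sec x ∈ box R ∧ sec (a • x) ∈ box R}.eq_empty_or_nonempty
    with h0 | ⟨y, hy⟩
  · simp [h0]
  rw [← measure_preimage_mul_right m (sec y)⁻¹]
  refine μ_le fun x hx => ⟨hR' (Set.mul_mem_mul hx.2.1 (Set.inv_mem_inv.2 hy.2.1)), hR' ?_⟩
  have e : a * (sec x * (sec y)⁻¹) * a⁻¹ = sec (a • x) * (sec (a • y))⁻¹ := by
    have e1 := mul_sec a x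
    have e2 := mul_sec a y
    rw [hx.1] at e1
    rw [hy.1] at e2
    calc _ = (a * sec x) * (a * sec y)⁻¹ := by group
      _ = _ := by rw [e1, e2]; group
  rw [e]
  exact Set.mul_mem_mul hx.2.2 (Set.inv_mem_inv.2 hy.2.2)

/-- **Quantitative spreading**: one dominant direction `i`. -/
theorem kappa_quant (R : ℝ) : ∃ C : ℝ≥0∞, C ≠ ∞ ∧ ∀ {i j k : Fin 3}, i ≠ j → i ≠ k → j ≠ k →
    ∀ (a b δ : ℝ), Real.exp (dgl a b j - dgl a b i) ≤ δ → Real.exp (dgl a b k - dgl a b i) ≤ δ →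
    ∀ γ : Γ, μ {x | coc (dg a b) x = γ ∧ sec x ∈ box R ∧ sec (dg a b • x) ∈ box R}
      ≤ C * ENNReal.ofReal (δ ^ 2) := by
  obtain ⟨R', hR'⟩ := μ_coc_eq_le R
  obtain ⟨C, hC, h⟩ := m_row_small R'
  refine ⟨C * ENNReal.ofReal ((|R'| + 1) ^ 2), ENNReal.mul_ne_top hC ENNReal.ofReal_ne_top,
    fun {i j k} hij hik hjk a b δ h1 h2 γ => (hR' _ γ).trans ?_⟩
  have hδ : 0 < δ := (Real.exp_pos _).trans_le h1
  rw [mul_assoc, ← ENNReal.ofReal_mul (by positivity), ← mul_pow]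
  refine le_trans (measure_mono fun g hg => ?_) (h hij hik hjk _ (by positivity))
  have key : ∀ l, Real.exp (dgl a b l - dgl a b i) ≤ δ → |g i l| ≤ (|R'| + 1) * δ := fun l hl => by
    have h2 := hg.2 i l
    rw [dg_inv, mul_dg_apply, dg_mul_apply, dgl_neg, mul_right_comm, ← Real.exp_add, abs_mul,
      abs_of_pos (Real.exp_pos _), ← sub_eq_add_neg, ← le_div_iff₀' (Real.exp_pos _),
      div_eq_mul_inv, ← Real.exp_neg, neg_sub] at h2
    refine h2.trans ?_
    gcongr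
    linarith [le_abs_self R']
  exact ⟨hg.1, key j h1, key k h2⟩

/-- **Quantitative spreading**: one recessive direction `i`. -/
theorem kappa_quant' (R : ℝ) : ∃ C : ℝ≥0∞, C ≠ ∞ ∧ ∀ {i j k : Fin 3}, i ≠ j → i ≠ k → j ≠ k →
    ∀ (a b δ : ℝ), Real.exp (dgl a b i - dgl a b j) ≤ δ → Real.exp (dgl a b i - dgl a b k) ≤ δ →
    ∀ γ : Γ, μ {x | coc (dg a b) x = γ ∧ sec x ∈ box R ∧ sec (dg a b • x) ∈ box R}
      ≤ C * ENNReal.ofReal (δ ^ 2) := by
  obtain ⟨C, hC, h⟩ := kappa_quant R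
  refine ⟨C, hC, fun {i j k} hij hik hjk a b δ h1 h2 γ => ?_⟩
  refine le_trans ?_ (h hij hik hjk (-a) (-b) δ (by rwa [dgl_neg, dgl_neg, neg_sub_neg])
    (by rwa [dgl_neg, dgl_neg, neg_sub_neg]) γ⁻¹)
  rw [← measure_preimage_smul μ (dg a b)
    {x | coc (dg (-a) (-b)) x = γ⁻¹ ∧ sec x ∈ box R ∧ sec (dg (-a) (-b) • x) ∈ box R}]
  refine measure_mono fun x hx => ?_
  simp only [Set.mem_preimage, Set.mem_ofPred_eq, ← dg_inv, coc_inv, inv_smul_smul, hx.1]
  exact ⟨trivial, hx.2.2, hx.2.1⟩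

end Crest.Agent.N111
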