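import Crest.Agent.N111.Lat.G

/-!
# Row 111, lattice foundations II: `SL(3, ℤ)` has finite covolume (a Siegel-type set).
-/

set_option autoImplicit false

namespace Crest.Agent.N111

open MeasureTheory Topology Filter Matrix
open scoped ENNReal NNReal

/-- Gram matrix of the columns -/
def gr (g : G) (i j : Fin 3) : ℝ := g 0 i * g 0 j + g 1 i * g 1 j + g 2 i * g 2 j

@[fun_prop] lemma continuous_gr (i j : Fin 3) : Continuous fun g => gr g i j := by
  unfold gr; fun_prop

lemma gr_det (g : G) : gr g 0 0 * gr g 1 1 * gr g 2 2 + 2 * gr g 0 1 * gr g 0 2 * gr g 1 2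
    - gr g 0 0 * gr g 1 2 ^ 2 - gr g 1 1 * gr g 0 2 ^ 2 - gr g 2 2 * gr g 0 1 ^ 2 = 1 := by
  have h := det_entry g
  have : (1 : ℝ) = 1 ^ 2 := by norm_num
  rw [this, ← h]
  unfold gr
  ring

lemma gr_pos (g : G) (i : Fin 3) : 0 < gr g i i := by
  have h := det_entry g
  have h0 : 0 ≤ gr g i i := by unfold gr; nlinarith [mul_self_nonneg (g 0 i), mul_self_nonneg (g 1 i), mul_self_nonneg (g 2 i)]
  refine lt_of_le_of_ne h0 fun h1 => ?_
  unfold gr at h1
  have e0 : g 0 i = 0 := by nlinarith [mul_self_nonneg (g 0 i), mul_self_nonneg (g 1 i), mul_self_nonneg (g 2 i)]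
  have e1 : g 1 i = 0 := by nlinarith [mul_self_nonneg (g 0 i), mul_self_nonneg (g 1 i), mul_self_nonneg (g 2 i)]
  have e2 : g 2 i = 0 := by nlinarith [mul_self_nonneg (g 0 i), mul_self_nonneg (g 1 i), mul_self_nonneg (g 2 i)]
  fin_cases i <;> simp only [Fin.zero_eta, Fin.mk_one, Fin.reduceFinMk] at e0 e1 e2 <;>
    rw [e0, e1, e2] at h <;> simp at h

lemma sq_le_gr (g : G) (i j : Fin 3) : g i j ^ 2 ≤ gr g j j := by
  unfold gr
  fin_cases i <;> simp only [Fin.zero_eta, Fin.mk_one, Fin.reduceFinMk] <;>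
    nlinarith [mul_self_nonneg (g 0 j), mul_self_nonneg (g 1 j), mul_self_nonneg (g 2 j)]

lemma mem_box_of_gr {g : G} {R : ℝ} (hR : 0 ≤ R) (h : ∀ j, gr g j j ≤ R ^ 2) : g ∈ box R :=
  fun i j => abs_le_of_sq_le_sq' ((sq_le_gr g i j).trans (h j)) hR |> abs_le.2

lemma gauss_bound {a b c r s t : ℝ} (ha : 0 < a) (hab : a ≤ b) (hbc : b ≤ c)
    (hr : 2 * |r| ≤ a) (hs : 2 * |s| ≤ a) (ht : 2 * |t| ≤ b)
    (h3 : ∀ e f : ℝ, (e = 1 ∨ e = -1) → (f = 1 ∨ f = -1) →
      0 ≤ a + b + 2 * e * s + 2 * f * t + 2 * e * f * r)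
    (hdet : a * b * c + 2 * r * s * t - a * t ^ 2 - b * s ^ 2 - c * r ^ 2 = 1) :
    a * b * c ≤ 4 ∧ 1 ≤ 4 * c := by
  have hb : 0 < b := ha.trans_le hab
  have hc : 0 < c := hb.trans_le hbc
  have hR := abs_nonneg r
  have hS := abs_nonneg s
  have hT := abs_nonneg t
  have e1 : r ^ 2 = |r| ^ 2 := (sq_abs r).symm
  have e2 : s ^ 2 = |s| ^ 2 := (sq_abs s).symm
  have e3 : t ^ 2 = |t| ^ 2 := (sq_abs t).symm
  have hrst : |r * s * t| = |r| * |s| * |t| := by rw [abs_mul, abs_mul]
  have hac : a ≤ c := hab.trans hbc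
  have k1 : |r| * |s| * |t| ≤ a * b * c / 8 := by
    have : |r| * |s| * |t| ≤ (a / 2) * (c / 2) * (b / 2) := by
      gcongr <;> linarith
    linarith
  have kt : a * |t| ^ 2 ≤ a * c / 2 * |t| := by
    have : |t| ≤ c / 2 := by linarith
    nlinarith [mul_nonneg (mul_nonneg ha.le hT) (sub_nonneg.2 this)]
  have ks : b * |s| ^ 2 ≤ a * c / 2 * |s| := by
    have h1 : b * |s| ≤ c * (a / 2) := by gcongr; linarith
    nlinarith [mul_nonneg hS (sub_nonneg.2 h1)]
  have kr : c * |r| ^ 2 ≤ a * c / 2 * |r| := by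
    have : |r| ≤ a / 2 := by linarith
    nlinarith [mul_nonneg (mul_nonneg hc.le hR) (sub_nonneg.2 this)]
  have hac0 : 0 < a * c / 2 := by positivity
  constructor
  · rcases le_or_gt 0 (r * s * t) with h | h
    · have : |r| + |s| + |t| ≤ 3 * b / 2 := by linarith
      have := mul_le_mul_of_nonneg_left this hac0.le
      nlinarith
    · have hsum : |r| + |s| + |t| ≤ b := by
        have : 2 * (|r| + |s| + |t|) ≤ a + b := by
          rcases le_or_gt 0 s with h1 | h1 <;> rcases le_or_gt 0 t with h2 | h2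
          · have hr0 : r ≤ 0 := by
              by_contra hh
              exact absurd h (not_lt.2 (by have := (not_le.1 hh).le; positivity))
            have := h3 (-1) (-1) (by simp) (by simp)
            rw [abs_of_nonpos hr0, abs_of_nonneg h1, abs_of_nonneg h2]; linarith
          · have hr0 : 0 ≤ r := by
              by_contra hh
              have : 0 ≤ (-r) * s * (-t) := by
                have := (not_le.1 hh).le
                exact mul_nonneg (mul_nonneg (by linarith) h1) (by linarith)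
              linarith
            have := h3 (-1) 1 (by simp) (by simp)
            rw [abs_of_nonneg hr0, abs_of_nonneg h1, abs_of_neg h2]; linarith
          · have hr0 : 0 ≤ r := by
              by_contra hh
              have : 0 ≤ (-r) * (-s) * t := by
                have := (not_le.1 hh).le
                exact mul_nonneg (mul_nonneg (by linarith) (by linarith)) h2
              linarith
            have := h3 1 (-1) (by simp) (by simp)
            rw [abs_of_nonneg hr0, abs_of_neg h1, abs_of_nonneg h2]; linarith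
          · have hr0 : r ≤ 0 := by
              by_contra hh
              have : 0 ≤ r * (-s) * (-t) := by
                have := (not_le.1 hh).le
                exact mul_nonneg (mul_nonneg this (by linarith)) (by linarith)
              linarith
            have := h3 1 1 (by simp) (by simp)
            rw [abs_of_nonpos hr0, abs_of_neg h1, abs_of_neg h2]; linarith
        linarith
      have h5 := mul_le_mul_of_nonneg_left hsum hac0.le
      have h6 : r * s * t = -(|r| * |s| * |t|) := by rw [← hrst, abs_of_neg h]; ring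
      nlinarith
  · have h6 : r * s * t ≤ |r| * |s| * |t| := hrst ▸ le_abs_self _
    have h7 : 1 ≤ 5 / 4 * (a * b * c) := by
      nlinarith [mul_nonneg ha.le (sq_nonneg t), mul_nonneg hb.le (sq_nonneg s),
        mul_nonneg hc.le (sq_nonneg r)]
    by_contra hh
    have hc4 : c ≤ 1 / 4 := by linarith
    have : a * b * c ≤ (1 / 4) * (1 / 4) * (1 / 4) := by gcongr <;> linarith
    linarith

/-- an explicit element of `Γ` -/
def mkΓ (A : Matrix (Fin 3) (Fin 3) ℤ) (h : A.det = 1) : Γ := ⟨A, h⟩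

@[simp] lemma mkΓ_apply (A : Matrix (Fin 3) (Fin 3) ℤ) (h : A.det = 1) (i j : Fin 3) :
    mkΓ A h i j = A i j := rfl

/-- Reduction theory. -/
theorem exists_reduced (g : G) : ∃ γ : Γ,
    gr (g * ι γ) 0 0 ≤ gr (g * ι γ) 1 1 ∧ gr (g * ι γ) 1 1 ≤ gr (g * ι γ) 2 2 ∧
    2 * |gr (g * ι γ) 0 2| ≤ gr (g * ι γ) 0 0 ∧
    gr (g * ι γ) 0 0 * gr (g * ι γ) 1 1 * gr (g * ι γ) 2 2 ≤ 4 ∧ 1 ≤ 4 * gr (g * ι γ) 2 2 := by
  let F : G → ℝ := fun h => 3 * gr h 0 0 + 2 * gr h 1 1 + gr h 2 2
  have hfin : {γ : Γ | F (g * ι γ) ≤ F g}.Finite := by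
    have hK : IsCompact ((fun h => g⁻¹ * h) '' box (F g + 1)) :=
      (isCompact_box _).image (by fun_prop)
    refine (finite_of_isCompact hK).subset fun γ hγ => ⟨g * ι γ, ?_, by simp⟩
    have hγ' : F (g * ι γ) ≤ F g := hγ
    have p0 := gr_pos (g * ι γ) 0
    have p1 := gr_pos (g * ι γ) 1
    have p2 := gr_pos (g * ι γ) 2
    have hF : 0 ≤ F g := le_trans (by simp only [F]; positivity) hγ'
    refine mem_box_of_gr (by linarith) fun j => ?_
    have : gr (g * ι γ) j j ≤ F (g * ι γ) := by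
      fin_cases j <;> simp only [F, Fin.zero_eta, Fin.mk_one, Fin.reduceFinMk] <;> linarith
    nlinarith
  obtain ⟨γ, hγ, hmin⟩ := Set.exists_min_image _ (fun γ => F (g * ι γ)) hfin ⟨1, by simp⟩
  have key : ∀ δ : Γ, F (g * ι γ) ≤ F (g * ι γ * ι δ) := fun δ => by
    rw [mul_assoc, ← map_mul]
    by_cases h : F (g * ι (γ * δ)) ≤ F g
    · exact hmin _ h
    · exact le_trans hγ (not_le.1 h).le
  refine ⟨γ, ?_⟩
  generalize g * ι γ = h at key
  have k1 := key (mkΓ !![0, -1, 0; 1, 0, 0; 0, 0, 1] (by simp [det_fin_three]))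
  have k2 := key (mkΓ !![1, 0, 0; 0, 0, -1; 0, 1, 0] (by simp [det_fin_three]))
  have k3 := fun e : ℤ => key (mkΓ !![1, e, 0; 0, 1, 0; 0, 0, 1] (by simp [det_fin_three]))
  have k4 := fun e f : ℤ => key (mkΓ !![1, 0, e; 0, 1, f; 0, 0, 1] (by simp [det_fin_three]))
  simp only [F, gr, mul_entry, ι_apply, mkΓ_apply] at k1 k2 k3 k4
  simp only [of_apply, cons_val', cons_val_zero, cons_val_one, cons_val, cons_val_fin_one,
    Int.cast_zero, Int.cast_one, Int.cast_neg] at k1 k2 k3 k4
  have hab : gr h 0 0 ≤ gr h 1 1 := by unfold gr; linarith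
  have hbc : gr h 1 1 ≤ gr h 2 2 := by unfold gr; linarith
  have hr : 2 * |gr h 0 1| ≤ gr h 0 0 := by
    have a1 := k3 1
    have a2 := k3 (-1)
    push_cast at a1 a2
    have : |gr h 0 1| ≤ gr h 0 0 / 2 := by
      rw [abs_le]; unfold gr; constructor <;> linarith
    linarith
  have hs : 2 * |gr h 0 2| ≤ gr h 0 0 := by
    have a1 := k4 1 0
    have a2 := k4 (-1) 0
    push_cast at a1 a2
    have : |gr h 0 2| ≤ gr h 0 0 / 2 := by
      rw [abs_le]; unfold gr; constructor <;> linarith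
    linarith
  have ht : 2 * |gr h 1 2| ≤ gr h 1 1 := by
    have a1 := k4 0 1
    have a2 := k4 0 (-1)
    push_cast at a1 a2
    have : |gr h 1 2| ≤ gr h 1 1 / 2 := by
      rw [abs_le]; unfold gr; constructor <;> linarith
    linarith
  have h3 : ∀ e f : ℝ, (e = 1 ∨ e = -1) → (f = 1 ∨ f = -1) →
      0 ≤ gr h 0 0 + gr h 1 1 + 2 * e * gr h 0 2 + 2 * f * gr h 1 2 + 2 * e * f * gr h 0 1 := by
    have a1 := k4 1 1
    have a2 := k4 1 (-1)
    have a3 := k4 (-1) 1
    have a4 := k4 (-1) (-1)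
    push_cast at a1 a2 a3 a4
    rintro e f (rfl | rfl) (rfl | rfl) <;> unfold gr <;> linarith
  have := gauss_bound (gr_pos h 0) hab hbc hr hs ht h3 (gr_det h)
  exact ⟨hab, hbc, hs, this.1, this.2⟩

/-- thin slices of a compact set -/
def slice (ε : ℝ) : Set G := {h | h ∈ box 8 ∧ |gr h 0 2| ≤ ε * gr h 0 0}

lemma measurableSet_slice (ε : ℝ) : MeasurableSet (slice ε) :=
  ((isCompact_box 8).isClosed.inter (isClosed_le (f := fun h => |gr h 0 2|)
    (g := fun h => ε * gr h 0 0) (by fun_prop) (by fun_prop))).measurableSet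

lemma measure_slice (ν : Measure G) [ν.IsHaarMeasure] {ε : ℝ} (hε : 0 < ε) :
    ν (slice ε) ≤ ENNReal.ofReal ε * ν (box 32) := by
  have := isMulRightInvariant_of_haar ν
  have h02 : (0 : Fin 3) ≠ 2 := by decide
  let N := ⌈1 / ε⌉₊
  let T : ℕ → Set G := fun k => (fun h => h * tv h02 (-(3 * k * ε))) ⁻¹' slice ε
  have hT : ∀ k, MeasurableSet (T k) := fun k =>
    (measurableSet_slice ε).preimage (by fun_prop)
  have hTm : ∀ k, ν (T k) = ν (slice ε) := fun k => measure_preimage_mul_right ν _ _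
  have hg0 : ∀ (h : G) (x : ℝ), gr (h * tv h02 x) 0 0 = gr h 0 0 := fun h x => by
    simp [gr, mul_tv_apply]
  have hg2 : ∀ (h : G) (x : ℝ), gr (h * tv h02 x) 0 2 = gr h 0 2 + x * gr h 0 0 := fun h x => by
    simp [gr, mul_tv_apply]; ring
  have hdisj : ((Finset.range N : Finset ℕ) : Set ℕ).PairwiseDisjoint T := by
    intro k _ l _ hkl
    refine Set.disjoint_left.2 fun h hk hl => hkl ?_
    have a1 := hk.2
    have a2 := hl.2
    simp only [hg0, hg2, abs_le] at a1 a2
    have hp := mul_pos hε (gr_pos h 0)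
    have b1 : (k : ℝ) < l + 1 := by
      by_contra hh
      nlinarith [mul_nonneg (sub_nonneg.2 (not_lt.1 hh)) hp.le]
    have b2 : (l : ℝ) < k + 1 := by
      by_contra hh
      nlinarith [mul_nonneg (sub_nonneg.2 (not_lt.1 hh)) hp.le]
    have c1 : k < l + 1 := by exact_mod_cast b1
    have c2 : l < k + 1 := by exact_mod_cast b2
    omega
  have hsub : (⋃ k ∈ Finset.range N, T k) ⊆ box 32 := by
    intro h hh
    simp only [Set.mem_iUnion, Finset.mem_range] at hh
    obtain ⟨k, hk, hh⟩ := hh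
    have hb := hh.1
    have hk' : (k : ℝ) * ε ≤ 1 := by
      have : (k : ℝ) < 1 / ε := Nat.lt_ceil.1 hk
      rw [lt_div_iff₀ hε] at this
      exact this.le
    have hk0 : 0 ≤ (k : ℝ) * ε := by positivity
    intro i j
    have b0 := hb i 0
    have bj := hb i j
    simp only [mul_tv_apply] at b0 bj
    simp only [h02, if_false, add_zero] at b0
    split_ifs at bj
    · rw [abs_le] at b0 bj ⊢
      constructor <;> nlinarith
    · rw [add_zero] at bj; linarith
  have h1 : (N : ℝ≥0∞) * ν (slice ε) ≤ ν (box 32) := by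
    refine le_trans (le_of_eq ?_) (measure_mono hsub)
    rw [measure_biUnion_finset hdisj fun k _ => hT k]
    simp [hTm]
  have h2 : 1 ≤ ENNReal.ofReal ε * N := by
    rw [← ENNReal.ofReal_natCast, ← ENNReal.ofReal_mul hε.le, ← ENNReal.ofReal_one]
    refine ENNReal.ofReal_le_ofReal ?_
    have : 1 / ε ≤ N := Nat.le_ceil _
    rw [div_le_iff₀ hε] at this
    linarith
  calc ν (slice ε) = 1 * ν (slice ε) := (one_mul _).symm
    _ ≤ ENNReal.ofReal ε * N * ν (slice ε) := by gcongr
    _ ≤ _ := by rw [mul_assoc]; gcongr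

lemma gr_mul_dg (h : G) (a b : ℝ) (i j : Fin 3) :
    gr (h * dg a b) i j = gr h i j * (Real.exp (dgl a b i) * Real.exp (dgl a b j)) := by
  simp only [gr, mul_dg_apply]; ring

/-- **Finite covolume**: a set of finite Haar measure meets every coset `g Γ`. -/
theorem exists_siegel (ν : Measure G) [ν.IsHaarMeasure] :
    ∃ S : Set G, MeasurableSet S ∧ ν S < ∞ ∧ ∀ g, ∃ γ : Γ, g * ι γ ∈ S := by
  have := isMulRightInvariant_of_haar ν
  let T : ℕ × ℕ → Set G := fun p =>
    (fun h => h * dg p.1 (p.2 - p.1)) ⁻¹' slice (Real.exp (-1) ^ p.1 * Real.exp (-1) ^ p.2)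
  refine ⟨⋃ p, T p, MeasurableSet.iUnion fun p => (measurableSet_slice _).preimage (by fun_prop),
    ?_, fun g => ?_⟩
  · let r : ℝ≥0∞ := ENNReal.ofReal (Real.exp (-1))
    have hr : r < 1 := by
      rw [ENNReal.ofReal_lt_one]; exact Real.exp_lt_one_iff.2 (by norm_num)
    refine (measure_iUnion_le _).trans_lt ?_
    have : ∀ p : ℕ × ℕ, ν (T p) ≤ r ^ p.1 * (r ^ p.2 * ν (box 32)) := fun p => by
      rw [measure_preimage_mul_right]
      refine (measure_slice ν (by positivity)).trans (le_of_eq ?_)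
      rw [ENNReal.ofReal_mul (by positivity), ENNReal.ofReal_pow (by positivity),
        ENNReal.ofReal_pow (by positivity), mul_assoc]
    refine (ENNReal.tsum_le_tsum this).trans_lt ?_
    rw [ENNReal.tsum_prod (f := fun a b => r ^ a * (r ^ b * ν (box 32)))]
    simp only [ENNReal.tsum_mul_left, ENNReal.tsum_mul_right, ENNReal.tsum_geometric]
    have h1 : (1 - r)⁻¹ < ∞ := ENNReal.inv_lt_top.2 (tsub_pos_of_lt hr)
    exact ENNReal.mul_lt_top h1 (ENNReal.mul_lt_top h1 (isCompact_box 32).measure_lt_top)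
  · obtain ⟨γ, hab, hbc, hs, hp, hc⟩ := exists_reduced g
    refine ⟨γ, ?_⟩
    generalize g * ι γ = h at hab hbc hs hp hc
    have ha := gr_pos h 0
    have ha2 : gr h 0 0 ≤ 2 := by
      by_contra hh
      have hb := gr_pos h 1
      have : (2 : ℝ) * 2 * 2 ≤ gr h 0 0 * gr h 1 1 * gr h 2 2 := by gcongr <;> linarith
      linarith
    have hE : 1 < Real.exp 1 ^ 2 := by nlinarith [Real.add_one_lt_exp (one_ne_zero)]
    have hE8 : Real.exp 1 ^ 2 ≤ 8 := by
      have := Real.exp_one_lt_d9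
      nlinarith [Real.exp_pos 1]
    obtain ⟨p, hp1, hp2⟩ := exists_nat_pow_near (x := 2 / gr h 0 0)
      (by rw [le_div_iff₀ ha]; linarith) hE
    obtain ⟨q, hq1, hq2⟩ := exists_nat_pow_near hc hE
    refine Set.mem_iUnion.2 ⟨(p, q), ?_⟩
    set P := Real.exp 1 ^ p with hP
    set Q := Real.exp 1 ^ q with hQ
    have hP0 : 0 < P := by positivity
    have hQ0 : 0 < Q := by positivity
    have e0 : Real.exp (dgl p (q - p) 0) = P := by simp [dgl, hP]
    have e1 : Real.exp (dgl p (q - p) 1) = Q / P := by simp [dgl, hP, hQ, Real.exp_sub]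
    have e2 : Real.exp (dgl p (q - p) 2) = Q⁻¹ := by
      simp only [dgl, hQ, cons_val, Real.exp_one_pow, ← Real.exp_neg]; congr 1; ring
    have f1 : (Real.exp 1 ^ 2) ^ p = P * P := by rw [hP]; ring
    have f2 : (Real.exp 1 ^ 2) ^ q = Q * Q := by rw [hQ]; ring
    rw [pow_succ, f1] at hp2
    rw [pow_succ, f2] at hq2
    rw [f1, le_div_iff₀ ha] at hp1
    rw [div_lt_iff₀ ha] at hp2
    rw [f2] at hq1
    constructor
    · refine mem_box_of_gr (by norm_num) fun j => ?_
      rw [gr_mul_dg]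
      fin_cases j <;> simp only [Fin.zero_eta, Fin.mk_one, Fin.reduceFinMk, e0, e1, e2]
      · linarith
      · have hb := gr_pos h 1
        rw [div_mul_div_comm, ← mul_div_assoc, div_le_iff₀ (by positivity)]
        have g1 : gr h 1 1 * (Q * Q) ≤ gr h 1 1 * (4 * gr h 2 2) := by gcongr
        have g2 : 2 ≤ P * P * 8 * gr h 0 0 := hp2.le.trans (by gcongr)
        have g3 : 0 ≤ gr h 1 1 * gr h 2 2 := by have := gr_pos h 2; positivity
        nlinarith [mul_le_mul_of_nonneg_left g2 g3, mul_pos hP0 hP0]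
      · rw [← mul_inv, ← div_eq_mul_inv, div_le_iff₀ (by positivity)]
        nlinarith [mul_pos hQ0 hQ0]
    · simp only [gr_mul_dg, e0, e2]
      have f3 : Real.exp (-1) ^ p = P⁻¹ := by rw [hP, Real.exp_neg, inv_pow]
      have f4 : Real.exp (-1) ^ q = Q⁻¹ := by rw [hQ, Real.exp_neg, inv_pow]
      rw [f3, f4, abs_mul, abs_of_pos (by positivity : 0 < P * Q⁻¹)]
      have : P⁻¹ * Q⁻¹ * (gr h 0 0 * (P * P)) = gr h 0 0 * (P * Q⁻¹) := by field_simp
      rw [this]
      gcongr
      linarith [abs_nonneg (gr h 0 2)]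

end Crest.Agent.N111
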