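import Crest.Agent.N111.Lat.Siegel

/-!
# Row 111, lattice foundations III: the probability space `X = G/Γ`, section, cocycle.

`X` is a strict Borel fundamental domain, `sec : X → G` the inclusion, `pr : G → X` the projection,
`cc : G → Γ` the lattice coordinate (`g = sec (pr g) * ι (cc g)`), `g • x = pr (g * sec x)`,
`coc g x = cc (g * sec x)`, so `g * sec x = sec (g • x) * ι (coc g x)`.
`m` is the Haar measure of covolume one and `μ` the invariant probability measure on `X`.
-/

set_option autoImplicit false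

namespace Crest.Agent.N111

open MeasureTheory Topology Filter Matrix
open scoped ENNReal NNReal symmDiff

theorem exists_small_nhds : ∃ W : Set G, IsOpen W ∧ 1 ∈ W ∧
    ∀ a ∈ W, ∀ b ∈ W, ∀ γ : Γ, a⁻¹ * b = ι γ → γ = 1 := by
  let O : Set G := {g | ∀ i j, |g i j - (1 : G) i j| < 1}
  have hO : O ∈ 𝓝 (1 : G) := by
    refine IsOpen.mem_nhds ?_ (fun i j => by simp)
    simp only [O, Set.ofPred_forall]
    exact isOpen_iInter_of_finite fun i => isOpen_iInter_of_finite fun j =>
      isOpen_lt (by fun_prop) continuous_const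
  have hc : Continuous fun p : G × G => p.1⁻¹ * p.2 := by fun_prop
  have h1 : (fun p : G × G => p.1⁻¹ * p.2) ⁻¹' O ∈ 𝓝 ((1 : G), (1 : G)) :=
    hc.continuousAt.preimage_mem_nhds (by simpa using hO)
  obtain ⟨V, hV, hV1, hV'⟩ := exists_nhds_square h1
  refine ⟨V, hV, hV1, fun a ha b hb γ hγ => ?_⟩
  have h2 : a⁻¹ * b ∈ O := by
    have := hV' (Set.mk_mem_prod ha hb)
    rwa [Set.mem_preimage] at this
  rw [hγ] at h2
  ext i j
  have h3 : |((γ i j : ℤ) : ℝ) - (((1 : Γ) i j : ℤ) : ℝ)| < 1 := by
    have := h2 i j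
    rwa [← map_one ι, ι_apply, ι_apply] at this
  have h4 : |γ i j - (1 : Γ) i j| < 1 := by exact_mod_cast h3
  exact sub_eq_zero.1 (Int.abs_lt_one_iff.1 h4)

theorem exists_dom : ∃ D : Set G, MeasurableSet D ∧ ∀ g : G, ∃! γ : Γ, g * (ι γ)⁻¹ ∈ D := by
  classical
  obtain ⟨W, hW, h1, hWΓ⟩ := exists_small_nhds
  obtain ⟨u, hu⟩ := TopologicalSpace.exists_dense_seq G
  let U : ℕ → Set G := fun n => {g | (u n)⁻¹ * g ∈ W}
  have hU : ∀ n, MeasurableSet (U n) := fun n => hW.measurableSet.preimage (by fun_prop)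
  let A : ℕ → Set G := fun n => {g | ∃ γ : Γ, g * (ι γ)⁻¹ ∈ U n}
  have hA : ∀ n, MeasurableSet (A n) := fun n => by
    simp only [A, Set.ofPred_exists]
    exact MeasurableSet.iUnion fun γ => (hU n).preimage (by fun_prop)
  have hAinv : ∀ n g (γ : Γ), g * (ι γ)⁻¹ ∈ A n ↔ g ∈ A n := fun n g γ => by
    constructor
    · rintro ⟨δ, hδ⟩
      exact ⟨δ * γ, by simpa [mul_assoc] using hδ⟩
    · rintro ⟨δ, hδ⟩
      exact ⟨δ * γ⁻¹, by simpa [mul_assoc] using hδ⟩
  have hcov : ∀ g, ∃ n, g ∈ A n := fun g => by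
    have ho : IsOpen {h : G | h⁻¹ * g ∈ W} := hW.preimage (by fun_prop)
    obtain ⟨n, hn⟩ := hu.exists_mem_open ho ⟨g, by simpa using h1⟩
    exact ⟨n, 1, by simpa [U] using hn⟩
  refine ⟨⋃ n, U n \ ⋃ k ∈ Set.Iio n, A k, MeasurableSet.iUnion fun n => (hU n).diff
    (MeasurableSet.biUnion (Set.to_countable _) fun k _ => hA k), fun g => ?_⟩
  have key : ∀ γ : Γ, g * (ι γ)⁻¹ ∈ (⋃ n, U n \ ⋃ k ∈ Set.Iio n, A k) ↔
      g * (ι γ)⁻¹ ∈ U (Nat.find (hcov g)) := fun γ => by
    simp only [Set.mem_iUnion, Set.mem_sdiff, Set.mem_Iio, not_exists, hAinv]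
    constructor
    · rintro ⟨n, hn, hn'⟩
      have : Nat.find (hcov g) = n := (Nat.find_eq_iff _).2 ⟨⟨γ, hn⟩, hn'⟩
      rwa [this]
    · exact fun h => ⟨_, h, fun k hk => Nat.find_min _ hk⟩
  obtain ⟨γ, hγ⟩ := Nat.find_spec (hcov g)
  refine ⟨γ, (key γ).2 hγ, fun δ hδ => ?_⟩
  have hδ' := (key δ).1 hδ
  have := hWΓ _ hδ' _ hγ (δ * γ⁻¹) (by simp [mul_assoc])
  exact mul_inv_eq_one.1 this

/-- a strict Borel fundamental domain -/
def dom : Set G := exists_dom.choose

lemma measurableSet_dom : MeasurableSet dom := exists_dom.choose_spec.1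

/-- the lattice coordinate of `g` -/
noncomputable def cc (g : G) : Γ := (exists_dom.choose_spec.2 g).exists.choose

lemma cc_eq_iff {g : G} {γ : Γ} : cc g = γ ↔ g * (ι γ)⁻¹ ∈ dom :=
  ⟨fun h => h ▸ (exists_dom.choose_spec.2 g).exists.choose_spec,
    fun h => (exists_dom.choose_spec.2 g).unique (exists_dom.choose_spec.2 g).exists.choose_spec h⟩

lemma mem_dom_iff {g : G} : g ∈ dom ↔ cc g = 1 := by simp [cc_eq_iff]

@[simp] lemma cc_mul_ι (g : G) (γ : Γ) : cc (g * ι γ) = cc g * γ := by
  rw [cc_eq_iff]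
  simpa [mul_assoc] using cc_eq_iff.1 (rfl : cc g = cc g)

@[fun_prop] lemma measurable_cc : Measurable cc := by
  refine measurable_to_countable' fun γ => ?_
  have : cc ⁻¹' {γ} = (fun g => g * (ι γ)⁻¹) ⁻¹' dom := by ext g; simp [cc_eq_iff]
  rw [this]
  exact measurableSet_dom.preimage (by fun_prop)

/-- `X = G/Γ` -/
def X : Type := dom

instance : MeasurableSpace X := inferInstanceAs (MeasurableSpace dom)
instance : StandardBorelSpace X := measurableSet_dom.standardBorel

/-- the section `X → G` -/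
def sec (x : X) : G := Subtype.val (p := fun g => g ∈ dom) x

/-- the projection `G → X` -/
noncomputable def pr (g : G) : X := (⟨g * (ι (cc g))⁻¹, cc_eq_iff.1 rfl⟩ : dom)

lemma measurableEmbedding_sec : MeasurableEmbedding sec :=
  MeasurableEmbedding.subtype_coe measurableSet_dom

@[fun_prop] lemma measurable_sec : Measurable sec := measurableEmbedding_sec.measurable

lemma sec_injective : Function.Injective sec := measurableEmbedding_sec.injective

lemma range_sec : Set.range sec = dom := Subtype.range_val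

lemma sec_mem (x : X) : sec x ∈ dom := Subtype.property (p := fun g => g ∈ dom) x

lemma sec_pr (g : G) : sec (pr g) = g * (ι (cc g))⁻¹ := rfl

lemma sec_pr_mul (g : G) : sec (pr g) * ι (cc g) = g := by simp [sec_pr]

@[simp] lemma cc_sec (x : X) : cc (sec x) = 1 := mem_dom_iff.1 (sec_mem x)

@[simp] lemma pr_sec (x : X) : pr (sec x) = x := sec_injective (by simp [sec_pr])

@[simp] lemma pr_mul_ι (g : G) (γ : Γ) : pr (g * ι γ) = pr g :=
  sec_injective (by simp [sec_pr, mul_assoc])

@[fun_prop] lemma measurable_ι : Measurable ι := Measurable.of_discrete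

instance : MeasurableMul₂ Γ := ⟨Measurable.of_discrete⟩
instance : MeasurableInv Γ := ⟨Measurable.of_discrete⟩

@[fun_prop] lemma measurable_pr : Measurable pr := by
  rw [← measurableEmbedding_sec.measurable_comp_iff]
  have : sec ∘ pr = fun g => g * (ι (cc g))⁻¹ := rfl
  rw [this]
  fun_prop

noncomputable instance : MulAction G X where
  smul g x := pr (g * sec x)
  one_smul x := by change pr (1 * sec x) = x; simp
  mul_smul g h x := by
    change pr (g * h * sec x) = pr (g * sec (pr (h * sec x)))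
    rw [sec_pr, ← map_inv, ← mul_assoc, pr_mul_ι, mul_assoc]

lemma smul_def (g : G) (x : X) : g • x = pr (g * sec x) := rfl

lemma smul_pr (g h : G) : g • pr h = pr (g * h) := by
  rw [smul_def, sec_pr, ← map_inv, ← mul_assoc, pr_mul_ι]

instance : MeasurableSMul₂ G X := ⟨by simp only [smul_def]; fun_prop⟩

/-- the cocycle `G × X → Γ` -/
noncomputable def coc (g : G) (x : X) : Γ := cc (g * sec x)

lemma mul_sec (g : G) (x : X) : g * sec x = sec (g • x) * ι (coc g x) := (sec_pr_mul _).symm

lemma ι_coc (g : G) (x : X) : ι (coc g x) = (sec (g • x))⁻¹ * g * sec x := by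
  rw [mul_assoc, mul_sec]; simp

@[simp] lemma coc_one (x : X) : coc 1 x = 1 := by simp [coc]

lemma coc_mul (g h : G) (x : X) : coc (g * h) x = coc g (h • x) * coc h x := by
  rw [coc, mul_assoc, mul_sec, ← mul_assoc, cc_mul_ι]; rfl

lemma coc_inv (g : G) (x : X) : coc g⁻¹ (g • x) = (coc g x)⁻¹ :=
  eq_inv_of_mul_eq_one_left (by rw [← coc_mul]; simp)

lemma coc_inv' (g : G) (x : X) : coc g (g⁻¹ • x) = (coc g⁻¹ x)⁻¹ := by
  simpa using coc_inv g⁻¹ x

@[fun_prop] lemma measurable_coc {α : Type*} [MeasurableSpace α] {g : α → G} {x : α → X}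
    (hg : Measurable g) (hx : Measurable x) : Measurable fun a => coc (g a) (x a) := by
  unfold coc; fun_prop

lemma measurableSet_coc (g : G) (S : Set Γ) : MeasurableSet {x | coc g x ∈ S} :=
  (measurable_coc measurable_const measurable_id) (MeasurableSet.of_discrete (s := S))

lemma smul_sec_mul (x y : X) (γ : Γ) : (sec y * ι γ * (sec x)⁻¹) • x = y := by
  simp [smul_def]

lemma coc_sec_mul (x y : X) (γ : Γ) : coc (sec y * ι γ * (sec x)⁻¹) x = γ := by
  simp [coc]

lemma coc_pr (g h : G) : coc g (pr h) = cc (g * h) * (cc h)⁻¹ := by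
  rw [coc, sec_pr, ← map_inv, ← mul_assoc, cc_mul_ι]

/-! ### measures -/

lemma lintegral_unfold_aux (ν : Measure G) [ν.IsHaarMeasure] {f : G → ℝ≥0∞} (hf : Measurable f) :
    ∫⁻ g, f g ∂ν = ∑' γ : Γ, ∫⁻ g in dom, f (g * ι γ) ∂ν := by
  have := isMulRightInvariant_of_haar ν
  have hu : (⋃ γ : Γ, cc ⁻¹' {γ}) = Set.univ :=
    Set.eq_univ_of_forall fun g => Set.mem_iUnion.2 ⟨cc g, rfl⟩
  rw [← setLIntegral_univ, ← hu, lintegral_iUnion
    (fun γ => measurable_cc (MeasurableSet.of_discrete))
    (fun a b hab => Set.disjoint_left.2 fun g ha hb => hab (ha.symm.trans hb))]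
  refine tsum_congr fun γ => ?_
  have h := (measurePreserving_mul_right ν (ι γ)).setLIntegral_comp_preimage
    (s := cc ⁻¹' {γ}) (measurable_cc (MeasurableSet.of_discrete)) hf
  rw [← h]
  congr 2
  ext g
  simp [mem_dom_iff]

lemma measure_dom_lt_top (ν : Measure G) [ν.IsHaarMeasure] : ν dom < ∞ := by
  obtain ⟨S, hS, hS', hc⟩ := exists_siegel ν
  refine lt_of_le_of_lt ?_ hS'
  rw [← lintegral_indicator_one hS, lintegral_unfold_aux ν (measurable_one.indicator hS),
    ← lintegral_tsum (f := fun (γ : Γ) g => S.indicator 1 (g * ι γ))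
      fun γ => ((measurable_one.indicator hS).comp (measurable_mul_const _)).aemeasurable,
    ← setLIntegral_one]
  refine lintegral_mono fun g => ?_
  obtain ⟨γ, hγ⟩ := hc g
  refine le_trans (le_of_eq ?_) (ENNReal.le_tsum γ)
  simp [hγ]

lemma measure_dom_pos (ν : Measure G) [ν.IsHaarMeasure] : ν dom ≠ 0 := by
  intro h
  have := lintegral_unfold_aux ν (f := fun _ => 1) measurable_const
  simp [h] at this
  exact NeZero.ne ν this

/-- the Haar measure of covolume one -/
noncomputable def m : Measure G := ((Measure.haar : Measure G) dom)⁻¹ • Measure.haar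

instance : m.IsHaarMeasure :=
  Measure.IsHaarMeasure.smul _ (ENNReal.inv_ne_zero.2 (measure_dom_lt_top _).ne)
    (ENNReal.inv_ne_top.2 (measure_dom_pos _))

instance : m.IsMulRightInvariant := isMulRightInvariant_of_haar m
instance : m.IsInvInvariant := isInvInvariant_of_haar m

@[simp] lemma m_dom : m dom = 1 :=
  ENNReal.inv_mul_cancel (measure_dom_pos _) (measure_dom_lt_top _).ne

/-- the invariant probability measure on `X` -/
noncomputable def μ : Measure X := m.comap sec

lemma μ_apply (A : Set X) : μ A = m (sec '' A) := measurableEmbedding_sec.comap_apply _ _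

instance : IsProbabilityMeasure μ := ⟨by rw [μ_apply, Set.image_univ, range_sec, m_dom]⟩

lemma map_sec : μ.map sec = m.restrict dom := by
  rw [μ, measurableEmbedding_sec.map_comap, range_sec]

lemma measurePreserving_sec : MeasurePreserving sec μ (m.restrict dom) := ⟨measurable_sec, map_sec⟩

lemma μ_le {A : Set X} {B : Set G} (h : ∀ x ∈ A, sec x ∈ B) : μ A ≤ m B := by
  rw [μ_apply]
  exact measure_mono (by rintro _ ⟨x, hx, rfl⟩; exact h x hx)

/-- **Unfolding.** -/
theorem lintegral_unfold {f : G → ℝ≥0∞} (hf : Measurable f) :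
    ∫⁻ g, f g ∂m = ∫⁻ x, ∑' γ : Γ, f (sec x * ι γ) ∂μ := by
  rw [lintegral_unfold_aux m hf, lintegral_tsum (f := fun (γ : Γ) x => f (sec x * ι γ))
    fun γ => (hf.comp (measurable_sec.mul_const _)).aemeasurable]
  refine tsum_congr fun γ => ?_
  rw [← map_sec, lintegral_map (f := fun g => f (g * ι γ)) (hf.comp (measurable_mul_const _))
    measurable_sec]

/-- `G ≃ X × Γ` -/
noncomputable def unfold : X × Γ ≃ᵐ G where
  toFun p := sec p.1 * ι p.2
  invFun g := (pr g, cc g)
  left_inv p := by simp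
  right_inv g := sec_pr_mul g
  measurable_toFun := by simp only [Equiv.coe_fn_mk]; fun_prop
  measurable_invFun := by simp only [Equiv.coe_fn_symm_mk]; fun_prop

lemma unfold_apply (p : X × Γ) : unfold p = sec p.1 * ι p.2 := rfl
lemma unfold_symm_apply (g : G) : unfold.symm g = (pr g, cc g) := rfl

theorem measurePreserving_unfold : MeasurePreserving unfold (μ.prod Measure.count) m := by
  refine ⟨unfold.measurable, Measure.ext fun A hA => ?_⟩
  rw [← lintegral_indicator_one hA, ← lintegral_indicator_one hA,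
    lintegral_unfold (measurable_one.indicator hA),
    lintegral_map (measurable_one.indicator hA) unfold.measurable,
    lintegral_prod (fun a => A.indicator 1 (unfold a))
      ((measurable_one.indicator hA).comp unfold.measurable).aemeasurable]
  simp only [lintegral_count, unfold_apply]

theorem measurePreserving_smul (g : G) : MeasurePreserving (fun x : X => g • x) μ μ := by
  refine ⟨by fun_prop, Measure.ext fun A hA => ?_⟩
  rw [Measure.map_apply (by fun_prop) hA, μ_apply]
  have h1 : sec '' ((fun x : X => g • x) ⁻¹' A)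
      = (fun h => g * h) ⁻¹' {h | pr h ∈ A ∧ cc (g⁻¹ * h) = 1} := by
    ext h
    simp only [Set.mem_image, Set.mem_preimage, Set.mem_ofPred_eq, inv_mul_cancel_left]
    constructor
    · rintro ⟨x, hx, rfl⟩
      exact ⟨hx, cc_sec x⟩
    · rintro ⟨h1, h2⟩
      exact ⟨pr h, by rwa [smul_pr], by simp [sec_pr, h2]⟩
  have hB : MeasurableSet {h | pr h ∈ A ∧ cc (g⁻¹ * h) = 1} :=
    (measurable_pr hA).inter ((measurable_cc.comp (measurable_const_mul g⁻¹))
      (MeasurableSet.of_discrete (s := {1})))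
  rw [h1, measure_preimage_mul, ← lintegral_indicator_one hB,
    lintegral_unfold (measurable_one.indicator hB), ← lintegral_indicator_one hA]
  refine lintegral_congr fun x => ?_
  rw [tsum_eq_single (coc g⁻¹ x)⁻¹]
  · by_cases hx : x ∈ A <;> simp [Set.indicator, hx, ← mul_assoc, -map_inv, coc]
  · intro γ hγ
    refine Set.indicator_of_notMem (fun h => hγ ?_) _
    have := h.2
    rw [← mul_assoc, cc_mul_ι] at this
    exact eq_inv_of_mul_eq_one_right this

instance : SMulInvariantMeasure G X μ :=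
  ⟨fun g _ hs => (measurePreserving_smul g).measure_preimage hs.nullMeasurableSet⟩

/-- null sets of `X` pull back to null sets of `G` -/
theorem quasiMeasurePreserving_pr : Measure.QuasiMeasurePreserving pr m μ := by
  have h1 := (measurePreserving_unfold.symm unfold).quasiMeasurePreserving
  exact (Measure.quasiMeasurePreserving_fst (μ := μ) (ν := Measure.count)).comp h1

theorem ae_pr_iff {p : G → Prop} : (∀ᵐ g ∂m, p g) ↔ ∀ γ : Γ, ∀ᵐ x ∂μ, p (sec x * ι γ) := by
  constructor
  · intro h γ
    have h1 : ∀ᵐ g ∂m, p (g * ι γ) :=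
      (measurePreserving_mul_right m (ι γ)).quasiMeasurePreserving.ae h
    exact measurePreserving_sec.quasiMeasurePreserving.ae (ae_restrict_of_ae h1)
  · intro h
    filter_upwards [quasiMeasurePreserving_pr.ae (ae_all_iff.2 h)] with g hg
    simpa [sec_pr_mul] using hg (cc g)

end Crest.Agent.N111
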